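import Vale.Agent.P344.Defs

namespace Vale.Agent.P344

open Matrix Finset

lemma Avail.cons {n : ℕ} {g : List (Val n)} {u : Val n} (h : Avail g u) (w : Val n) :
    Avail (w :: g) u := by
  rcases h with h | h | h
  · exact Or.inl h
  · exact Or.inr (Or.inl h)
  · exact Or.inr (Or.inr (List.mem_cons_of_mem _ h))

lemma Avail.head {n : ℕ} (g : List (Val n)) (w : Val n) : Avail (w :: g) w :=
  Or.inr (Or.inr List.mem_cons_self)

lemma Avail.zero {n : ℕ} (g : List (Val n)) : Avail g (fun _ => 0) := Or.inl rfl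

/-- The matrix `M` can be applied to available values with at most `c` further gates. -/
def Cost {α β : Type} [Fintype α] (M : Matrix β α ℂ) (c : ℝ) : Prop :=
  ∀ (n : ℕ) (g : List (Val n)), Circuit g → ∀ f : α → Val n, (∀ a, Avail g (f a)) →
    ∃ g' : List (Val n), Circuit g' ∧ (g'.length : ℝ) ≤ g.length + c ∧
      (∀ u, Avail g u → Avail g' u) ∧ ∀ b, Avail g' (fun x => ∑ a, M b a * f a x)

variable {α β γ : Type} [Fintype α]

lemma Cost.mono {M : Matrix β α ℂ} {c c' : ℝ} (h : Cost M c) (hc : c ≤ c') : Cost M c' := by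
  intro n g hg f hf
  obtain ⟨g', h1, h2, h3, h4⟩ := h n g hg f hf
  exact ⟨g', h1, by linarith, h3, h4⟩

lemma Cost.mul [Fintype β] {M : Matrix γ β ℂ} {N : Matrix β α ℂ} {c c' : ℝ}
    (hM : Cost M c) (hN : Cost N c') : Cost (M * N) (c + c') := by
  intro n g hg f hf
  obtain ⟨g1, h1, h2, h3, h4⟩ := hN n g hg f hf
  obtain ⟨g2, k1, k2, k3, k4⟩ := hM n g1 h1 _ h4
  refine ⟨g2, k1, by linarith, fun u hu => k3 u (h3 u hu), fun b => ?_⟩
  have := k4 b
  convert this using 2 with x
  simp only [Matrix.mul_apply, Finset.sum_mul, Finset.mul_sum]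
  rw [Finset.sum_comm]
  simp only [mul_assoc]

/-- Selecting rows and restricting columns along an injection. -/
lemma Cost.sub {α' β' : Type} [Fintype α'] {M : Matrix β α ℂ} {M' : Matrix β' α' ℂ} {c : ℝ}
    (h : Cost M c) (r : β' → β) (s : α' → α) (hs : Function.Injective s)
    (he : ∀ b a, M' b a = M (r b) (s a)) : Cost M' c := by
  classical
  intro n g hg f hf
  obtain ⟨g', h1, h2, h3, h4⟩ := h n g hg (Function.extend s f (fun _ _ => 0)) (by
    intro a
    by_cases ha : ∃ a', s a' = a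
    · obtain ⟨a', rfl⟩ := ha
      rw [hs.extend_apply]; exact hf a'
    · rw [Function.extend_apply' _ _ _ ha]; exact Avail.zero g)
  refine ⟨g', h1, h2, h3, fun b => ?_⟩
  have := h4 (r b)
  convert this using 2 with x
  symm
  rw [← Finset.sum_subset (Finset.subset_univ (Finset.univ.image s))]
  · rw [Finset.sum_image (fun a _ b _ h => hs h)]
    refine Finset.sum_congr rfl fun a _ => ?_
    rw [hs.extend_apply, he]
  · intro a _ ha
    rw [Function.extend_apply']
    · simp
    · rintro ⟨a', rfl⟩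
      exact ha (Finset.mem_image_of_mem _ (Finset.mem_univ _))

/-- Extending columns by zero. -/
lemma Cost.ext {α' : Type} [Fintype α'] {M : Matrix β α ℂ} {M' : Matrix β α' ℂ} {c : ℝ}
    (h : Cost M' c) (s : α' → α) (hs : Function.Injective s)
    (he : ∀ b a, M b (s a) = M' b a) (h0 : ∀ b a, (∀ a', s a' ≠ a) → M b a = 0) :
    Cost M c := by
  classical
  intro n g hg f hf
  obtain ⟨g', h1, h2, h3, h4⟩ := h n g hg (fun a => f (s a)) (fun a => hf _)
  refine ⟨g', h1, h2, h3, fun b => ?_⟩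
  have := h4 b
  convert this using 2 with x
  rw [← Finset.sum_subset (Finset.subset_univ (Finset.univ.image s))]
  · rw [Finset.sum_image (fun a _ b _ h => hs h)]
    simp only [he]
  · intro a _ ha
    rw [h0 b a, zero_mul]
    rintro a' rfl
    exact ha (Finset.mem_image_of_mem _ (Finset.mem_univ _))

/-- Covering the rows by finitely many groups. -/
lemma Cost.rows {Γ : Type} [Fintype Γ] {δ : Γ → Type} {M : Matrix β α ℂ} (c : Γ → ℝ)
    (r : ∀ i, δ i → β) (hc : ∀ i, Cost (M.submatrix (r i) id) (c i))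
    (hr : ∀ b, ∃ i d, r i d = b) : Cost M (∑ i, c i) := by
  classical
  intro n g hg f hf
  have key : ∀ s : Finset Γ, ∃ g' : List (Val n), Circuit g' ∧
      (g'.length : ℝ) ≤ g.length + ∑ i ∈ s, c i ∧ (∀ u, Avail g u → Avail g' u) ∧
      ∀ i ∈ s, ∀ d, Avail g' (fun x => ∑ a, M (r i d) a * f a x) := by
    intro s
    induction s using Finset.induction_on with
    | empty => exact ⟨g, hg, by simp, fun u h => h, by simp⟩
    | insert i s hi ih =>
      obtain ⟨g1, h1, h2, h3, h4⟩ := ih
      obtain ⟨g2, k1, k2, k3, k4⟩ := hc i n g1 h1 f (fun a => h3 _ (hf a))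
      refine ⟨g2, k1, by rw [Finset.sum_insert hi]; linarith, fun u hu => k3 u (h3 u hu), ?_⟩
      intro j hj d
      rcases Finset.mem_insert.1 hj with rfl | hj
      · exact k4 d
      · exact k3 _ (h4 j hj d)
  obtain ⟨g', h1, h2, h3, h4⟩ := key Finset.univ
  refine ⟨g', h1, h2, h3, fun b => ?_⟩
  obtain ⟨i, d, rfl⟩ := hr b
  exact h4 i (Finset.mem_univ _) d

lemma Cost.one [DecidableEq α] : Cost (1 : Matrix α α ℂ) 0 := by
  intro n g hg f hf
  refine ⟨g, hg, by simp, fun u h => h, fun b => ?_⟩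
  convert hf b using 2 with x
  simp [Matrix.one_apply]

lemma Cost.row (w : α → ℂ) : Cost (Matrix.of fun (_ : Unit) a => w a) (2 * Fintype.card α) := by
  classical
  intro n g hg f hf
  have key : ∀ s : Finset α, ∃ g' : List (Val n), Circuit g' ∧
      (g'.length : ℝ) ≤ g.length + 2 * s.card ∧ (∀ u, Avail g u → Avail g' u) ∧
      Avail g' (fun x => ∑ a ∈ s, w a * f a x) := by
    intro s
    induction s using Finset.induction_on with
    | empty => exact ⟨g, hg, by simp, fun u h => h, by simpa using Avail.zero g⟩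
    | insert i s hi ih =>
      obtain ⟨g1, h1, h2, h3, h4⟩ := ih
      have c1 := Circuit.smul (w i) h1 (h3 _ (hf i))
      have c2 := Circuit.add c1 (Avail.head _ _) (h4.cons _)
      refine ⟨_, c2, ?_, fun u hu => ((h3 u hu).cons _).cons _, ?_⟩
      · rw [Finset.card_insert_of_notMem hi]
        simp only [List.length_cons]
        push_cast
        linarith
      · simp only [Finset.sum_insert hi]
        exact Avail.head _ _
  obtain ⟨g', h1, h2, h3, h4⟩ := key Finset.univ
  exact ⟨g', h1, by simpa using h2, h3, fun _ => h4⟩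

lemma Cost.trivial [Fintype β] (M : Matrix β α ℂ) :
    Cost M (2 * Fintype.card α * Fintype.card β) := by
  have := Cost.rows (M := M) (δ := fun _ : β => Unit) (fun _ => 2 * (Fintype.card α : ℝ))
    (fun b _ => b) (fun b => Cost.row (M b)) (fun b => ⟨b, (), rfl⟩)
  refine this.mono (le_of_eq ?_)
  simp; ring

lemma Cost.monomial [Fintype β] [DecidableEq α] (p : β → α) (d : β → ℂ) {M : Matrix β α ℂ}
    (hM : ∀ b a, M b a = if a = p b then d b else 0) : Cost M (Fintype.card β) := by
  have := Cost.rows (M := M) (δ := fun _ : β => Unit) (fun _ => (1 : ℝ))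
    (fun b _ => b) (fun b => ?_) (fun b => ⟨b, (), rfl⟩)
  · simpa using this
  intro n g hg f hf
  have c1 := Circuit.smul (d b) hg (hf (p b))
  refine ⟨_, c1, by simp, fun u hu => hu.cons _, fun _ => ?_⟩
  convert Avail.head g (fun x => d b * f (p b) x) using 2 with x
  simp [hM]

/-- Block diagonal matrices indexed by a product. -/
def bd {Γ : Type} [DecidableEq Γ] (M : Γ → Matrix β α ℂ) : Matrix (Γ × β) (Γ × α) ℂ :=
  fun p q => if p.1 = q.1 then M p.1 p.2 q.2 else 0

lemma Cost.bd {Γ : Type} [Fintype Γ] [DecidableEq Γ] {M : Γ → Matrix β α ℂ} {c : Γ → ℝ}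
    (h : ∀ i, Cost (M i) (c i)) : Cost (bd M) (∑ i, c i) := by
  refine Cost.rows (δ := fun _ => β) c (fun i b => (i, b)) (fun i => ?_)
    (fun b => ⟨b.1, b.2, rfl⟩)
  refine (h i).ext (fun a => (i, a)) (fun a b h => (Prod.ext_iff.1 h).2) ?_ ?_
  · intro b a; simp [P344.bd]
  · rintro b ⟨j, a⟩ h0
    have : i ≠ j := by rintro rfl; exact h0 a rfl
    simp [P344.bd, this]

lemma Cost.bdc {Γ : Type} [Fintype Γ] [DecidableEq Γ] {M : Matrix β α ℂ} {c : ℝ}
    (h : Cost M c) : Cost (P344.bd fun _ : Γ => M) (Fintype.card Γ * c) := by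
  simpa using Cost.bd (Γ := Γ) (M := fun _ => M) (c := fun _ => c) (fun _ => h)

lemma Cost.blocks {α' β' : Type} [Fintype α'] {M : Matrix β α ℂ} {N : Matrix β' α' ℂ}
    {c c' : ℝ} (hM : Cost M c) (hN : Cost N c') : Cost (fromBlocks M 0 0 N) (c + c') := by
  intro n g hg f hf
  obtain ⟨g1, h1, h2, h3, h4⟩ := hM n g hg (fun a => f (Sum.inl a)) (fun a => hf _)
  obtain ⟨g2, k1, k2, k3, k4⟩ := hN n g1 h1 (fun a => f (Sum.inr a)) (fun a => h3 _ (hf _))
  refine ⟨g2, k1, by linarith, fun u hu => k3 u (h3 u hu), ?_⟩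
  rintro (b | b)
  · convert k3 _ (h4 b) using 2 with x
    simp
  · convert k4 b using 2 with x
    simp

end Vale.Agent.P344
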