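import Mathlib

namespace Vale.Agent.P344

/-- A value of a circuit on `n` inputs: a function of the input vector. -/
abbrev Val (n : ℕ) := (Fin n → ℂ) → ℂ

/-- The values available after the gates `g` have been computed: the constant `0`, the inputs
`x_i`, and the values computed by the gates in `g`. -/
def Avail {n : ℕ} (g : List (Val n)) (u : Val n) : Prop :=
  u = (fun _ => 0) ∨ (∃ i : Fin n, u = fun x => x i) ∨ u ∈ g

/-- `Circuit g`: the list `g` (newest gate first) lists the values computed by the gates of a
linear circuit; each gate computes `u + v`, `u - v` or `c * u` from available values `u, v`. -/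
inductive Circuit {n : ℕ} : List (Val n) → Prop
  | nil : Circuit []
  | add {g : List (Val n)} {u v : Val n} : Circuit g → Avail g u → Avail g v →
      Circuit ((fun x => u x + v x) :: g)
  | sub {g : List (Val n)} {u v : Val n} : Circuit g → Avail g u → Avail g v →
      Circuit ((fun x => u x - v x) :: g)
  | smul {g : List (Val n)} {u : Val n} (c : ℂ) : Circuit g → Avail g u →
      Circuit ((fun x => c * u x) :: g)

/-- The `j`-th coordinate of the unnormalized discrete Fourier transform `F_n x`. -/
noncomputable def dft (n : ℕ) (j : Fin n) : Val n :=
  fun x => ∑ k : Fin n, Complex.exp (2 * Real.pi * Complex.I / n) ^ ((j : ℕ) * (k : ℕ)) * x k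

end Vale.Agent.P344
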