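import Vale.Agent.P344.Layer

namespace Vale.Agent.P344

open Matrix Finset

variable {α β γ σ : Type} [Fintype α] [DecidableEq α] [Fintype β] [DecidableEq β]
  [Fintype γ] [DecidableEq γ] [Fintype σ] [DecidableEq σ]

omit [Fintype α] in
lemma Mono.one : Mono (1 : Matrix α α ℂ) := Mono.diagonal _

lemma Mono.mul {M N : Matrix α α ℂ} (hM : Mono M) (hN : Mono N) : Mono (M * N) := by
  obtain ⟨p, d, h⟩ := hM
  obtain ⟨q, e, k⟩ := hN
  refine ⟨p.trans q, fun x => d x * e (p x), fun x y => ?_⟩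
  simp only [Matrix.mul_apply, h, ite_mul, zero_mul, Finset.sum_ite_eq', mem_univ, if_true, k]
  by_cases hy : y = q (p x) <;> simp [hy]

omit [Fintype α] in
lemma IsLayer.one : IsLayer (1 : Matrix α α ℂ) :=
  ⟨Empty, inferInstance, Empty.elim, Empty.elim, fun a => a.elim, fun a => a.elim,
    fun a => a.elim, fun x y => by simp [Matrix.one_apply]⟩

lemma Dep.mono_mul {r : ℕ} {D M : Matrix α α ℂ} (hD : Mono D) (h : Dep r M) : Dep r (D * M) := by
  cases r with
  | zero => exact Mono.mul hD h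
  | succ r =>
    obtain ⟨D', L, M', h1, h2, h3, rfl⟩ := h
    exact ⟨D * D', L, M', hD.mul h1, h2, h3, by simp only [Matrix.mul_assoc]⟩

lemma Dep.mul {r s : ℕ} {M N : Matrix α α ℂ} (hM : Dep r M) (hN : Dep s N) :
    Dep (r + s) (M * N) := by
  induction r generalizing M with
  | zero => rw [zero_add]; exact Dep.mono_mul hM hN
  | succ r ih =>
    obtain ⟨D, L, M', h1, h2, h3, rfl⟩ := hM
    rw [Nat.add_right_comm]
    exact ⟨D, L, M' * N, h1, h2, ih h3, by simp only [Matrix.mul_assoc]⟩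

lemma Dep.mul_mono {r : ℕ} {D M : Matrix α α ℂ} (h : Dep r M) (hD : Mono D) : Dep r (M * D) :=
  Dep.mul (s := 0) h hD

lemma Dep.le {r s : ℕ} {M : Matrix α α ℂ} (h : Dep r M) (hs : r ≤ s) : Dep s M := by
  induction hs with
  | refl => exact h
  | step _ ih => exact ⟨1, 1, M, Mono.one, IsLayer.one, ih, by simp⟩

lemma IsLayer.dep {L : Matrix α α ℂ} (h : IsLayer L) : Dep 1 L :=
  ⟨1, L, 1, Mono.one, h, Mono.one, by simp⟩

lemma Mono.dep {M : Matrix α α ℂ} (h : Mono M) (r : ℕ) : Dep r M :=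
  Dep.le (r := 0) h (Nat.zero_le r)

omit [Fintype α] [Fintype β] in
lemma Mono.reindex {M : Matrix α α ℂ} (h : Mono M) (e f : β ≃ α) : Mono (M.submatrix e f) := by
  obtain ⟨p, d, h⟩ := h
  refine ⟨(e.trans p).trans f.symm, fun x => d (e x), fun x y => ?_⟩
  simp [h, Equiv.eq_symm_apply]

omit [Fintype α] [Fintype β] in
lemma IsLayer.reindex {M : Matrix α α ℂ} (h : IsLayer M) (e : β ≃ α) :
    IsLayer (M.submatrix e e) := by
  obtain ⟨B, _, s, t, hs, ht, hd, h⟩ := h
  refine ⟨B, inferInstance, e.symm ∘ s, e.symm ∘ t, e.symm.injective.comp hs,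
    e.symm.injective.comp ht, fun b b' k => hd b b' (e.symm.injective k), fun x y => ?_⟩
  simp [h, Equiv.eq_symm_apply]

lemma Dep.reindex {r : ℕ} {M : Matrix α α ℂ} (h : Dep r M) (e f : β ≃ α) :
    Dep r (M.submatrix e f) := by
  induction r generalizing M e with
  | zero => exact Mono.reindex h e f
  | succ r ih =>
    obtain ⟨D, L, M', h1, h2, h3, rfl⟩ := h
    refine ⟨D.submatrix e e, L.submatrix e e, M'.submatrix e f, h1.reindex e e, h2.reindex e,
      ih h3 e, ?_⟩
    rw [Matrix.submatrix_mul_equiv, Matrix.submatrix_mul_equiv]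

lemma Dep.of_eq {r : ℕ} {M : Matrix α α ℂ} {N : Matrix β β ℂ} (h : Dep r M) (e f : β ≃ α)
    (hN : ∀ x y, N x y = M (e x) (f y)) : Dep r N := by
  have : N = M.submatrix e f := by ext x y; exact hN x y
  rw [this]; exact h.reindex e f

omit [Fintype α] [Fintype β] in
lemma Mono.blocks {M : Matrix α α ℂ} {N : Matrix β β ℂ} (hM : Mono M) (hN : Mono N) :
    Mono (fromBlocks M 0 0 N) := by
  obtain ⟨p, d, h⟩ := hM
  obtain ⟨q, e, k⟩ := hN
  refine ⟨p.sumCongr q, Sum.elim d e, ?_⟩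
  rintro (x | x) (y | y) <;> simp [h, k]

omit [Fintype α] [Fintype β] in
lemma IsLayer.blocks {M : Matrix α α ℂ} {N : Matrix β β ℂ} (hM : IsLayer M) (hN : IsLayer N) :
    IsLayer (fromBlocks M 0 0 N) := by
  obtain ⟨B, _, s, t, hs, ht, hd, h⟩ := hM
  obtain ⟨B', _, s', t', hs', ht', hd', h'⟩ := hN
  refine ⟨B ⊕ B', inferInstance, Sum.map s s', Sum.map t t', hs.sumMap hs', ht.sumMap ht',
    ?_, ?_⟩
  · rintro (x | x) (y | y) <;> simp [hd, hd']
  · rintro (x | x) (y | y) <;> rw [Fintype.sum_sum_type] <;> simp [h, h', -Finset.sum_boole]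

lemma Dep.blocks {r : ℕ} {M : Matrix α α ℂ} {N : Matrix β β ℂ} (hM : Dep r M) (hN : Dep r N) :
    Dep r (fromBlocks M 0 0 N) := by
  induction r generalizing M N with
  | zero => exact Mono.blocks hM hN
  | succ r ih =>
    obtain ⟨D, L, M', h1, h2, h3, rfl⟩ := hM
    obtain ⟨D', L', N', k1, k2, k3, rfl⟩ := hN
    refine ⟨_, _, _, h1.blocks k1, h2.blocks k2, ih h3 k3, ?_⟩
    simp [fromBlocks_multiply]

lemma Dep.bd_add {r a b : ℕ} {M : Matrix α α ℂ} (ha : Dep r (bd fun _ : Fin a => M))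
    (hb : Dep r (bd fun _ : Fin b => M)) : Dep r (bd fun _ : Fin (a + b) => M) := by
  let e : Fin (a + b) × α ≃ Fin a × α ⊕ Fin b × α :=
    (finSumFinEquiv.symm.prodCongr (Equiv.refl α)).trans (Equiv.sumProdDistrib _ _ _)
  refine (ha.blocks hb).of_eq e e ?_
  rintro ⟨x, u⟩ ⟨y, v⟩
  obtain ⟨x, rfl⟩ := finSumFinEquiv.surjective x
  obtain ⟨y, rfl⟩ := finSumFinEquiv.surjective y
  simp only [e, Equiv.trans_apply, Equiv.prodCongr_apply, Prod.map, Equiv.symm_apply_apply,
    Equiv.refl_apply, bd, Equiv.apply_eq_iff_eq]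
  rcases x with x | x <;> rcases y with y | y <;> simp [bd]

lemma Dep.bd {r : ℕ} {M : Matrix α α ℂ} (h : Dep r M) (b : ℕ) :
    Dep r (bd fun _ : Fin b => M) := by
  induction b with
  | zero => exact Mono.dep ⟨Equiv.refl _, 0, fun x => x.1.elim0⟩ r
  | succ b ih =>
    refine ih.bd_add (h.of_eq (Equiv.uniqueProd α (Fin 1)) (Equiv.uniqueProd α (Fin 1)) ?_)
    rintro ⟨x, u⟩ ⟨y, v⟩
    simp [P344.bd, Subsingleton.elim x y]

/-- Depth with `σ` as untouched (but usable) extra registers. -/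
def PDep (σ : Type) [Fintype σ] [DecidableEq σ] (r : ℕ) (M : Matrix α α ℂ) : Prop :=
  Dep r (fromBlocks M 0 0 (1 : Matrix σ σ ℂ))

lemma Dep.pdep {r : ℕ} {M : Matrix α α ℂ} (h : Dep r M) : PDep σ r M :=
  h.blocks (Mono.one.dep r)

lemma PDep.mul {r s : ℕ} {M N : Matrix α α ℂ} (hM : PDep σ r M) (hN : PDep σ s N) :
    PDep σ (r + s) (M * N) := by
  have := Dep.mul hM hN
  simpa [PDep, fromBlocks_multiply] using this

lemma PDep.reindex {r : ℕ} {M : Matrix α α ℂ} (h : PDep σ r M) (e : β ≃ α) :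
    PDep σ r (M.submatrix e e) := by
  refine Dep.of_eq h (e.sumCongr (Equiv.refl σ)) (e.sumCongr (Equiv.refl σ)) ?_
  rintro (x | x) (y | y) <;> simp

lemma PDep.assoc {r : ℕ} {M : Matrix α α ℂ} (h : PDep σ r (fromBlocks M 0 0 (1 : Matrix β β ℂ))) :
    PDep (β ⊕ σ) r M := by
  refine Dep.of_eq h (Equiv.sumAssoc _ _ _).symm (Equiv.sumAssoc _ _ _).symm ?_
  rintro (x | x | x) (y | y | y) <;> simp [Matrix.one_apply]

lemma PDep.enlarge {τ : Type} [Fintype τ] [DecidableEq τ] {r : ℕ} {M : Matrix α α ℂ}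
    (h : PDep σ r M) (hc : Fintype.card σ ≤ Fintype.card τ) : PDep τ r M := by
  obtain ⟨e⟩ : Nonempty (τ ≃ σ ⊕ Fin (Fintype.card τ - Fintype.card σ)) :=
    Fintype.card_eq.1 (by simp; omega)
  have := PDep.assoc (σ := Fin (Fintype.card τ - Fintype.card σ)) (Dep.pdep h)
  refine Dep.of_eq this ((Equiv.refl α).sumCongr e) ((Equiv.refl α).sumCongr e) ?_
  rintro (x | x) (y | y) <;> simp [Matrix.one_apply]

/-- The shear `x += N y`. -/
def Sh (N : Matrix α α ℂ) : Matrix (α ⊕ α) (α ⊕ α) ℂ := fromBlocks 1 N 0 1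

lemma Sh_add (M N : Matrix α α ℂ) : Sh (M + N) = Sh M * Sh N := by
  simp [Sh, fromBlocks_multiply, add_comm]

lemma Sh_conj {P P' Q Q' : Matrix α α ℂ} (N : Matrix α α ℂ) (hP : P * P' = 1) (hQ : Q' * Q = 1) :
    Sh (P * N * Q) = fromBlocks P 0 0 Q' * Sh N * fromBlocks P' 0 0 Q := by
  simp [Sh, fromBlocks_multiply, hP, hQ]

lemma Sh_one : Dep 1 (Sh (1 : Matrix α α ℂ)) := by
  refine IsLayer.dep ⟨α, inferInstance, Sum.inr, Sum.inl, Sum.inr_injective, Sum.inl_injective,
    fun _ _ => by simp, ?_⟩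
  rintro (x | x) (y | y) <;> simp [Sh, Matrix.one_apply, ite_and, eq_comm]

lemma Sh_diag0 {r : ℕ} {N : Matrix α α ℂ} (h : Dep r (Sh N)) (p q : α → ℂ) (hp : ∀ a, p a ≠ 0)
    (hq : ∀ a, q a ≠ 0) : Dep r (Sh (diagonal p * N * diagonal q)) := by
  rw [Sh_conj (P' := diagonal fun a => (p a)⁻¹) (Q' := diagonal fun a => (q a)⁻¹) N
    (by simp [diagonal_mul_diagonal, hp]) (by simp [diagonal_mul_diagonal, hq])]
  exact (Dep.mono_mul ((Mono.diagonal _).blocks (Mono.diagonal _)) h).mul_mono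
    ((Mono.diagonal _).blocks (Mono.diagonal _))

lemma split_ne (z : ℂ) : ∃ a b : ℂ, a ≠ 0 ∧ b ≠ 0 ∧ z = a + b := by
  by_cases h : z = 1
  · exact ⟨2, -1, by norm_num, by norm_num, by rw [h]; norm_num⟩
  · exact ⟨1, z - 1, one_ne_zero, sub_ne_zero.2 h, by ring⟩

lemma Sh_diag {r : ℕ} {N : Matrix α α ℂ} (h : Dep r (Sh N)) (p q : α → ℂ) :
    Dep (4 * r) (Sh (diagonal p * N * diagonal q)) := by
  choose p1 p2 a1 a2 a3 using fun a => split_ne (p a)
  choose q1 q2 b1 b2 b3 using fun a => split_ne (q a)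
  have e1 : diagonal p = diagonal p1 + diagonal p2 := by rw [diagonal_add]; congr 1; exact funext a3
  have e2 : diagonal q = diagonal q1 + diagonal q2 := by rw [diagonal_add]; congr 1; exact funext b3
  rw [e1, e2]
  simp only [Matrix.add_mul, Matrix.mul_add, Sh_add]
  exact (((Sh_diag0 h _ _ a1 b1).mul (Sh_diag0 h _ _ a2 b1)).mul
    ((Sh_diag0 h _ _ a1 b2).mul (Sh_diag0 h _ _ a2 b2))).le (by omega)

/-- From shears by `F` and `-F'` to the in-place product `F' Λ F`. -/
lemma inplace {r : ℕ} {F F' : Matrix α α ℂ} (hF : F * F' = 1) (h1 : PDep σ r (Sh F))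
    (h2 : PDep σ r (Sh (-F'))) (l : α → ℂ) : PDep (α ⊕ σ) (6 * r) (F' * diagonal l * F) := by
  have hF' : F' * F = 1 := mul_eq_one_comm.1 hF
  have h3 : PDep σ r (fromBlocks 1 0 F 1) := by
    have := h1.reindex (Equiv.sumComm α α)
    convert this using 1
    ext (x | x) (y | y) <;> simp [Sh]
  have hW : PDep σ (r + r + r) (fromBlocks 0 (-F') F 0) := by
    have := (h3.mul h2).mul h3
    simpa [Sh, fromBlocks_multiply, hF, hF'] using this
  have hm : PDep σ 0 (fromBlocks (diagonal fun _ : α => (-1 : ℂ)) 0 0 (diagonal fun a => - l a)) :=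
    Dep.pdep (r := 0) ((Mono.diagonal _).blocks (Mono.diagonal _))
  have := (hW.mul hm).mul hW
  have e1 : (diagonal fun _ : α => (-1 : ℂ)) = -1 := by
    ext x y; simp [diagonal_apply, Matrix.one_apply]; split_ifs <;> simp
  have e2 : (diagonal fun a : α => - l a) = - diagonal l := by rw [diagonal_neg]
  have e3 : fromBlocks 0 (-F') F 0 * fromBlocks (-1) 0 0 (- diagonal l) *
      fromBlocks 0 (-F') F 0 = fromBlocks (F' * diagonal l * F) 0 0 1 := by
    generalize diagonal l = L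
    simp [fromBlocks_multiply, hF]
  rw [e1, e2, e3] at this
  exact PDep.assoc (Dep.le this (by omega))

/-- With enough blocks, every block can be transformed using the others as extra registers. -/
lemma all_blocks {r c : ℕ} {F : Matrix α α ℂ} (h : PDep σ r F) (hc0 : 0 < c)
    (hc : Fintype.card σ + Fintype.card α ≤ c * Fintype.card α) (b : ℕ) (hb : c ≤ b) :
    Dep (2 * c * r) (bd fun _ : Fin b => F) := by
  have single : ∀ (b : ℕ), c ≤ b → ∀ i : Fin b,
      Dep r (bd fun j : Fin b => if j = i then F else 1) := by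
    intro b hb i
    have h1 := h.enlarge (τ := {j : Fin b // j ≠ i} × α) (by
      simp only [Fintype.card_prod, ne_eq, Fintype.card_subtype_compl, Fintype.card_fin,
        Fintype.card_unique]
      have : c * Fintype.card α ≤ b * Fintype.card α := Nat.mul_le_mul_right _ hb
      rw [Nat.sub_mul]; omega)
    let e : α ⊕ {j : Fin b // j ≠ i} × α ≃ Fin b × α :=
      { toFun := Sum.elim (fun a => (i, a)) (fun p => (p.1.1, p.2))
        invFun := fun p => if h : p.1 = i then Sum.inl p.2 else Sum.inr (⟨p.1, h⟩, p.2)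
        left_inv := by
          rintro (a | ⟨⟨j, hj⟩, a⟩)
          · simp
          · simp [hj]
        right_inv := by
          rintro ⟨j, a⟩
          by_cases hj : j = i <;> simp [hj] }
    refine Dep.of_eq h1 e.symm e.symm ?_
    intro x y
    obtain ⟨x, rfl⟩ := e.surjective x
    obtain ⟨y, rfl⟩ := e.surjective y
    simp only [Equiv.symm_apply_apply]
    rcases x with x | ⟨⟨j, hj⟩, x⟩ <;> rcases y with y | ⟨⟨k, hk⟩, y⟩
    · simp [e, bd]
    · simp [e, bd, Ne.symm hk]
    · simp [e, bd, hj]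
    · simp [e, bd, hj, Matrix.one_apply, ite_and]
  have small : ∀ (b : ℕ), c ≤ b → ∀ s : Finset (Fin b),
      Dep (s.card * r) (bd fun j : Fin b => if j ∈ s then F else 1) := by
    intro b hb s
    induction s using Finset.induction_on with
    | empty => simpa [bd_one] using Mono.one.dep 0
    | insert i s hi ih =>
      have := ih.mul (single b hb i)
      rw [Finset.card_insert_of_notMem hi, add_mul, one_mul]
      convert this using 1
      ext ⟨j, x⟩ ⟨k, y⟩
      simp only [bd, Matrix.mul_apply, Fintype.sum_prod_type, ite_mul, zero_mul]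
      rw [Finset.sum_comm]
      simp only [Finset.sum_ite_eq, mem_univ, if_true, mul_ite, mul_zero]
      by_cases hjk : j = k
      · subst hjk
        by_cases hj : j = i
        · subst hj; simp [hi, ← Matrix.mul_apply]
        · by_cases hs : j ∈ s <;> simp [hj, hs, ← Matrix.mul_apply]
      · simp [hjk]
  induction b using Nat.strong_induction_on with
  | _ b ih =>
    by_cases h2 : b ≤ 2 * c
    · have := small b hb univ
      simp only [card_univ, Fintype.card_fin, mem_univ, if_true] at this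
      exact this.le (Nat.mul_le_mul_right _ h2)
    · obtain ⟨b', rfl⟩ : ∃ b', b = c + b' := ⟨b - c, by omega⟩
      exact (ih c (by omega) le_rfl).bd_add (ih b' (by omega) (by omega))

end Vale.Agent.P344
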