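import Vale.Agent.P344.Walsh

namespace Vale.Agent.P344

open Matrix Finset
open scoped Kronecker

lemma Cost.kron {B P Q : Type} [Fintype B] [DecidableEq B] [Fintype P] [DecidableEq P]
    [Fintype Q] [DecidableEq Q] {X : Matrix P P ℂ} {Y : Matrix Q Q ℂ} {c c' : ℝ}
    (hX : Cost (P344.bd fun _ : B × Q => X) c) (hY : Cost (P344.bd fun _ : B × P => Y) c') :
    Cost (P344.bd fun _ : B => X ⊗ₖ Y) (c + c') := by
  have h1 : Cost (P344.bd fun _ : B => X ⊗ₖ (1 : Matrix Q Q ℂ)) c := by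
    refine hX.sub (fun p => ((p.1, p.2.2), p.2.1)) (fun p => ((p.1, p.2.2), p.2.1)) ?_ ?_
    · rintro ⟨a, b, c⟩ ⟨a', b', c'⟩ h
      simp only [Prod.mk.injEq] at h
      simp [h]
    · rintro ⟨a, b, c⟩ ⟨a', b', c'⟩
      simp [P344.bd, Matrix.one_apply, ite_and]
  have h2 : Cost (P344.bd fun _ : B => (1 : Matrix P P ℂ) ⊗ₖ Y) c' := by
    refine hY.sub (fun p => ((p.1, p.2.1), p.2.2)) (fun p => ((p.1, p.2.1), p.2.2)) ?_ ?_
    · rintro ⟨a, b, c⟩ ⟨a', b', c'⟩ h
      simp only [Prod.mk.injEq] at h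
      simp [h]
    · rintro ⟨a, b, c⟩ ⟨a', b', c'⟩
      simp [P344.bd, Matrix.one_apply, ite_and]
  have := h1.mul h2
  rwa [← bd_mul, ← mul_kronecker_mul, Matrix.mul_one, Matrix.one_mul] at this

lemma Cost.batch {B B' Γ P : Type} [Fintype B] [DecidableEq B] [Fintype B'] [DecidableEq B']
    [Fintype Γ] [DecidableEq Γ] [Fintype P] {X : Matrix P P ℂ} {c : ℝ}
    (hX : Cost (P344.bd fun _ : B => X) c) (i : B' → Γ × B) (hi : Function.Injective i) :
    Cost (P344.bd fun _ : B' => X) (Fintype.card Γ * c) := by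
  refine (hX.bdc (Γ := Γ)).sub (fun p => ((i p.1).1, (i p.1).2, p.2))
    (fun p => ((i p.1).1, (i p.1).2, p.2)) ?_ ?_
  · rintro ⟨a, b⟩ ⟨a', b'⟩ h
    simp only [Prod.mk.injEq] at h
    rw [hi (Prod.ext h.1 h.2.1), h.2.2]
  · rintro ⟨a, b⟩ ⟨a', b'⟩
    simp only [P344.bd]
    by_cases h : a = a'
    · simp [h]
    · have : ¬ ((i a).1 = (i a').1 ∧ (i a).2 = (i a').2) := fun k => h (hi (Prod.ext k.1 k.2))
      rw [if_neg h, ← ite_and, if_neg this]

variable {α β γ B : Type} [Fintype α] [DecidableEq α] [Fintype β] [DecidableEq β]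
  [Fintype γ] [DecidableEq γ] [Fintype B] [DecidableEq B]

lemma card_VV (α : Type) [Fintype α] [DecidableEq α] :
    Fintype.card (V α × V α) = 4 ^ Fintype.card α := by
  simp [← mul_pow]

lemma K_split (h : Fintype.card γ = Fintype.card α + Fintype.card β) {c c' : ℝ}
    (hX : Cost (bd fun _ : B × (V β × V β) => Kmat α) c)
    (hY : Cost (bd fun _ : B × (V α × V α) => Kmat β) c') :
    Cost (bd fun _ : B => Kmat γ) (c + c') := by
  obtain ⟨e⟩ : Nonempty (α ⊕ β ≃ γ) := Fintype.card_eq.1 (by simp [h])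
  let f : B × (V γ × V γ) → B × ((V α × V α) × (V β × V β)) := fun p =>
    (p.1, ((fun a => p.2.1 (e (Sum.inl a)), fun a => p.2.2 (e (Sum.inl a))),
      (fun a => p.2.1 (e (Sum.inr a)), fun a => p.2.2 (e (Sum.inr a)))))
  refine (hX.kron hY).sub f f ?_ ?_
  · rintro ⟨b, x, y⟩ ⟨b', x', y'⟩ he
    simp only [f, Prod.mk.injEq] at he
    obtain ⟨rfl, ⟨h1, h2⟩, h3, h4⟩ := he
    congr 2
    · funext g; obtain ⟨a | a, rfl⟩ := e.surjective g
      exacts [congrFun h1 a, congrFun h3 a]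
    · funext g; obtain ⟨a | a, rfl⟩ := e.surjective g
      exacts [congrFun h2 a, congrFun h4 a]
  · rintro ⟨b, x, y⟩ ⟨b', x', y'⟩
    simp only [f, bd, Kmat, Matrix.of_apply, kroneckerMap_apply]
    split_ifs
    · simp only [dotProduct, Pi.add_apply]
      rw [← e.sum_comp, Fintype.sum_sum_type, sgn_add, h, pow_add]; ring
    · rfl

lemma K_plain (n : ℕ) : ∀ (α B : Type) [Fintype α] [DecidableEq α] [Fintype B] [DecidableEq B],
    Fintype.card α = n → Cost (bd fun _ : B => Kmat α) (32 * n * 4 ^ n * Fintype.card B) := by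
  induction n with
  | zero =>
    intro α B _ _ _ _ h
    have : IsEmpty α := Fintype.card_eq_zero_iff.1 h
    have e : Kmat α = 1 := by
      ext p q
      rw [Subsingleton.elim p q]
      simp [Kmat, sgn_zero]
    rw [e, bd_one]
    simpa using Cost.one
  | succ n ih =>
    intro α B _ _ _ _ h
    have h1 := ih (Fin n) (B × (V (Fin 1) × V (Fin 1))) (by simp)
    have h2 := (Cost.trivial (Kmat (Fin 1))).bdc (Γ := B × (V (Fin n) × V (Fin n)))
    refine (K_split (by simp [h]) h1 h2).mono ?_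
    rw [Fintype.card_prod B, Fintype.card_prod B, card_VV, card_VV]
    simp only [Fintype.card_fin]
    push_cast
    have : (0 : ℝ) ≤ 4 ^ n * Fintype.card B := by positivity
    rw [pow_succ 4 n]
    nlinarith

lemma K_rec : ∃ (W : Type) (_ : Fintype W) (_ : DecidableEq W) (c r : ℕ) (D : ℝ),
    2 ≤ c ∧ c ≤ 2 ^ 20 ∧ 1 ≤ Fintype.card W ∧ Fintype.card W ≤ r ∧
    10 ^ 14 * r ≤ (10 ^ 14 - 339) * (Fintype.card W * c) ∧ 0 ≤ D ∧
    ∀ (j : ℕ) (α : Type) [Fintype α] [DecidableEq α], Fintype.card α < c ^ (j + 1) →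
      Cost (bd fun _ : Fin j → W => Kmat α) (D * (j + 1) * r ^ j * 4 ^ Fintype.card α) := by
  obtain ⟨K0, W, _, _, i1, i2, r0, C0, ⟨hc, hc'⟩, hw1, hr, h⟩ := gadget'
  generalize hcc : Fintype.card K0 = c at hr hc hc'
  set w := Fintype.card W with hw
  set C := max C0 0 with hC
  have hC0 : 0 ≤ C := le_max_right _ _
  refine ⟨W, i1, i2, c, max r0 w, C + 32 * c * w, hc, hc', hw1, le_max_right _ _,
    by
      rcases max_choice r0 w with k | k <;> rw [k]
      · exact hr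
      · have : w * 2 ≤ w * c := Nat.mul_le_mul_left _ hc
        rw [← hw]
        omega, by positivity, ?_⟩
  set r := max r0 w with hrr
  have hr0 : (r0 : ℝ) ≤ r := by exact_mod_cast le_max_left _ _
  have hwr : (w : ℝ) ≤ r := by exact_mod_cast le_max_right _ _
  have hw1' : (1 : ℝ) ≤ w := by exact_mod_cast hw1
  set D := C + 32 * c * w with hD
  have hD0 : 0 ≤ D := by positivity
  intro j
  induction j with
  | zero =>
    intro α _ _ hα
    refine (K_plain _ α (Fin 0 → W) rfl).mono ?_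
    have : (Fintype.card α : ℝ) ≤ c := by exact_mod_cast (by simpa using hα.le)
    simp only [Fintype.card_unique, Nat.cast_one, mul_one, Nat.cast_zero, zero_add, pow_zero]
    have h4 : (0 : ℝ) ≤ 4 ^ Fintype.card α := by positivity
    refine mul_le_mul_of_nonneg_right ?_ h4
    have : (0 : ℝ) ≤ c := by positivity
    nlinarith
  | succ j ih =>
    intro α _ _ hα
    set n := Fintype.card α with hn
    have hk : n / c < c ^ (j + 1) := by
      rw [Nat.div_lt_iff_lt_mul (by omega), ← pow_succ]; exact hα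
    have h1 := ih (Fin (n / c)) (by simpa using hk)
    rw [Fintype.card_fin] at h1
    have h2 := h _ _ _ (psi_rep (κ := K0) (by positivity) h1)
    rw [one_kronecker_one, Psi_one, Fintype.card_prod, card_VV, Fintype.card_prod K0, hcc,
      Fintype.card_fin, Fintype.card_fun, Fintype.card_fin, ← hw] at h2
    have h3 : Cost (bd fun _ : Fin (j + 1) → W => Kmat (K0 × Fin (n / c)))
        (4 ^ (c * (n / c)) * (D * (j + 1) * r ^ (j + 1) + C * w ^ j)) := by
      refine (h2.sub (fun p => (p.1 0, Fin.tail p.1, p.2)) (fun p => (p.1 0, Fin.tail p.1, p.2))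
        ?_ ?_).mono ?_
      · rintro ⟨a, x⟩ ⟨b, y⟩ he
        simp only [Prod.mk.injEq] at he
        rw [← Fin.cons_self_tail a, ← Fin.cons_self_tail b, he.1, he.2.1, he.2.2]
      · rintro ⟨a, x⟩ ⟨b, y⟩
        simp only [bd]
        by_cases hab : a = b
        · simp [hab]
        · rw [if_neg hab, ← ite_and, if_neg]
          rintro ⟨k1, k2⟩
          exact hab (by rw [← Fin.cons_self_tail a, ← Fin.cons_self_tail b, k1, k2])
      · have e4 : (4 : ℝ) ^ (c * (n / c)) = 4 ^ ((c - 1) * (n / c)) * 4 ^ (n / c) := by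
          rw [← pow_add]; congr 1
          obtain ⟨c', rfl⟩ : ∃ c', c = c' + 1 := ⟨c - 1, by omega⟩
          simp; ring
        push_cast
        have k1 : (r0 : ℝ) * (4 ^ ((c - 1) * (n / c)) * (D * (j + 1) * r ^ j * 4 ^ (n / c))) ≤
            r * (4 ^ ((c - 1) * (n / c)) * (D * (j + 1) * r ^ j * 4 ^ (n / c))) :=
          mul_le_mul_of_nonneg_right hr0 (by positivity)
        have k2 : C0 * (w ^ j * 4 ^ (c * (n / c))) ≤ C * (w ^ j * 4 ^ (c * (n / c))) :=
          mul_le_mul_of_nonneg_right (le_max_left _ _) (by positivity)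
        calc _ ≤ _ := add_le_add k1 k2
          _ = _ := by rw [e4]; ring
    have h4 := h3.batch (B' := (Fin (j + 1) → W) × (V (Fin (n % c)) × V (Fin (n % c))))
      Prod.swap Prod.swap_injective
    have h5 := K_plain (n % c) (Fin (n % c))
      ((Fin (j + 1) → W) × (V (K0 × Fin (n / c)) × V (K0 × Fin (n / c)))) (by simp)
    refine (K_split (by
      rw [Fintype.card_prod, hcc, Fintype.card_fin, Fintype.card_fin, Nat.div_add_mod]) h4 h5).mono ?_
    rw [card_VV, Fintype.card_prod, card_VV, Fintype.card_prod K0, hcc, Fintype.card_fun]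
    simp only [Fintype.card_fin]
    rw [← hw]
    have e4 : (4 : ℝ) ^ n = 4 ^ (n % c) * 4 ^ (c * (n / c)) := by
      rw [← pow_add, Nat.mod_add_div]
    have hm : ((n % c : ℕ) : ℝ) ≤ c := by exact_mod_cast (Nat.mod_lt _ (by omega)).le
    have hp : (w : ℝ) ^ j ≤ r ^ (j + 1) := by
      calc (w : ℝ) ^ j ≤ r ^ j := pow_le_pow_left₀ (by positivity) hwr j
        _ ≤ r ^ (j + 1) := pow_le_pow_right₀ (by linarith) (by omega)
    push_cast
    rw [e4]
    have k1 : 32 * ((n % c : ℕ) : ℝ) * w * w ^ j ≤ 32 * c * w * w ^ j := by gcongr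
    have k2 : D * w ^ j ≤ D * r ^ (j + 1) := by gcongr
    have k3 : (0 : ℝ) ≤ 4 ^ (n % c) * 4 ^ (c * (n / c)) := by positivity
    have k4 : D * (j + 1) * r ^ (j + 1) + C * w ^ j + 32 * ((n % c : ℕ) : ℝ) * w * w ^ j ≤
        D * (j + 1 + 1) * r ^ (j + 1) := by
      have : D * w ^ j = C * w ^ j + 32 * c * w * w ^ j := by rw [hD]; ring
      nlinarith
    calc _ = (D * (j + 1) * r ^ (j + 1) + C * w ^ j + 32 * ((n % c : ℕ) : ℝ) * w * w ^ j) *
        (4 ^ (n % c) * 4 ^ (c * (n / c))) := by ring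
      _ ≤ _ := mul_le_mul_of_nonneg_right k4 k3

lemma sq_le_two_pow (j : ℕ) : j ^ 2 + 4 ≤ 4 * 2 ^ j := by
  induction j with
  | zero => simp
  | succ j ih =>
    have := Nat.lt_two_pow_self (n := j)
    rw [pow_succ 2 j]; nlinarith

lemma batch_small (w c n : ℕ) (hc : 2 ≤ c) :
    w ^ Nat.log c n ≤ 2 ^ (w ^ 2) * 4 ^ (n / 2) := by
  rcases Nat.eq_zero_or_pos n with rfl | hn
  · simp [Nat.one_le_two_pow]
  set j := Nat.log c n
  have h1 : 2 ^ j ≤ n := (Nat.pow_le_pow_left hc j).trans (Nat.pow_log_le_self c hn.ne')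
  have h2 := sq_le_two_pow j
  calc w ^ j ≤ (2 ^ w) ^ j := Nat.pow_le_pow_left (Nat.lt_two_pow_self).le j
    _ = 2 ^ (w * j) := by rw [← pow_mul]
    _ ≤ 2 ^ (w ^ 2 + 2 * (n / 2)) := by
      apply Nat.pow_le_pow_right (by norm_num)
      have : 4 * (w * j) ≤ 4 * w ^ 2 + j ^ 2 := by nlinarith [sq_nonneg ((2 * w : ℤ) - j)]
      omega
    _ = _ := by rw [pow_add, pow_mul]; norm_num

lemma growth {θ : ℝ} {c : ℕ} (h1 : 1 ≤ θ) (h2 : θ ≤ (1 - 339 / 10 ^ 14) * c)
    (h3 : c ≤ 2 ^ 20) : ∃ γ F : ℝ, 0 < γ ∧ γ < 1 - 2 / 10 ^ 13 ∧ 0 ≤ F ∧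
    ∀ n : ℕ, ((Nat.log c n : ℝ) + 1) * θ ^ Nat.log c n ≤ F * ((n : ℝ) + 1) ^ γ := by
  have hc0 : (0 : ℝ) ≤ c := by positivity
  have hc : (1 : ℝ) < c := by nlinarith
  set t : ℝ := (1 - 330 / 10 ^ 14) * c with ht
  have hθt : θ < t := by rw [ht]; linarith
  have ht1 : 1 < t := by linarith
  set y := t / θ - 1 with hy
  have hy0 : 0 < y := by rw [hy, sub_pos, one_lt_div (by linarith)]; exact hθt
  refine ⟨Real.logb c t, 1 + 1 / y, Real.logb_pos hc ht1, ?_, by positivity, fun n => ?_⟩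
  · have l0 : 0 < Real.log c := Real.log_pos hc
    have l1 : Real.log c ≤ 20 * Real.log 2 := by
      have : Real.log c ≤ Real.log (2 ^ 20) :=
        Real.log_le_log (by linarith) (by exact_mod_cast h3)
      simpa using this
    have l2 := Real.log_two_lt_d9
    have l3 : Real.log (1 - 330 / 10 ^ 14 : ℝ) ≤ 1 - 330 / 10 ^ 14 - 1 :=
      Real.log_le_sub_one_of_pos (by norm_num)
    rw [Real.logb, div_lt_iff₀ l0, ht, Real.log_mul (by norm_num) (by linarith)]
    linarith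
  set j := Nat.log c n
  have e1 : t = θ * (1 + y) := by rw [hy]; field_simp; ring
  have k1 : 1 + j * y ≤ (1 + y) ^ j := one_add_mul_le_pow (by linarith) j
  have k2 : (j : ℝ) + 1 ≤ (1 + 1 / y) * (1 + j * y) := by
    have : (1 + 1 / y) * (1 + j * y) = 1 + j * y + 1 / y + j := by field_simp; ring
    rw [this]
    have : 0 ≤ (j : ℝ) * y + 1 / y := by positivity
    linarith
  have k3 : t ^ j ≤ ((n : ℝ) + 1) ^ Real.logb c t := by
    have : t ^ j = ((c : ℝ) ^ j) ^ Real.logb c t := by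
      rw [← Real.rpow_natCast (c : ℝ), ← Real.rpow_mul (by linarith), mul_comm,
        Real.rpow_mul (by linarith), Real.rpow_logb (by linarith) hc.ne' (by linarith),
        Real.rpow_natCast]
    rw [this]
    refine Real.rpow_le_rpow (by positivity) ?_ (Real.logb_pos hc ht1).le
    have : c ^ j ≤ n + 1 := by
      rcases Nat.eq_zero_or_pos n with rfl | hn
      · simp [j]
      · exact (Nat.pow_log_le_self c hn.ne').trans (by omega)
    exact_mod_cast this
  calc _ ≤ (1 + 1 / y) * (1 + y) ^ j * θ ^ j := by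
        gcongr; exact k2.trans (by gcongr)
    _ = (1 + 1 / y) * t ^ j := by rw [e1, mul_pow]; ring
    _ ≤ _ := by gcongr

theorem K_fast : ∃ γ C : ℝ, 0 < γ ∧ γ < 1 - 2 / 10 ^ 13 ∧ 0 ≤ C ∧
    ∀ (α : Type) [Fintype α] [DecidableEq α],
      Cost (Kmat α) (C * 4 ^ Fintype.card α * ((Fintype.card α : ℝ) + 1) ^ γ) := by
  obtain ⟨W, i1, i2, c, r, D, hc, hc', hw, hwr, hr, hD, h⟩ := K_rec
  set w := Fintype.card W with hw'
  have hw0 : (0 : ℝ) < w := by exact_mod_cast hw
  obtain ⟨γ, F, g0, g1, hF, hg⟩ := growth (θ := r / w) (c := c)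
    (by rw [le_div_iff₀ hw0, one_mul]; exact_mod_cast hwr)
    (by
      rw [div_le_iff₀ hw0]
      have : (10 ^ 14 * r : ℝ) ≤ (10 ^ 14 - 339) * (w * c) := by
        have k : ((10 ^ 14 * r : ℕ) : ℝ) ≤ (((10 ^ 14 - 339) * (w * c) : ℕ) : ℝ) := by
          exact_mod_cast hr
        push_cast at k
        linarith
      linarith) hc'
  refine ⟨γ, 2 * (1 + 2 ^ (w ^ 2)) * D * F, g0, g1, by positivity, fun α _ _ => ?_⟩
  set n := Fintype.card α with hn
  set j := Nat.log c n with hj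
  have hlt : n < c ^ (j + 1) := Nat.lt_pow_succ_log_self (by omega) n
  have key : ∀ a b : ℕ, a + b = n → n / 2 ≤ b →
      Cost (bd fun _ : Unit × (V (Fin b) × V (Fin b)) => Kmat (Fin a))
        ((1 + 2 ^ (w ^ 2)) * D * F * 4 ^ n * ((n : ℝ) + 1) ^ γ) := by
    intro a b hab hb
    have h1 := h j (Fin a) (by simp; omega)
    have hwj : 0 < w ^ j := by positivity
    obtain ⟨i⟩ : Nonempty (Unit × (V (Fin b) × V (Fin b)) ↪
        Fin (4 ^ b / w ^ j + 1) × (Fin j → W)) := by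
      apply Function.Embedding.nonempty_of_card_le
      rw [Fintype.card_prod, card_VV]
      simp only [Fintype.card_unique, Fintype.card_fin, one_mul, Fintype.card_prod,
        Fintype.card_fun]
      exact (Nat.lt_mul_div_succ _ hwj).le.trans (le_of_eq (mul_comm _ _))
    refine (h1.batch i i.injective).mono ?_
    simp only [Fintype.card_fin]
    have k1 : (4 ^ b / w ^ j + 1) * w ^ j ≤ (1 + 2 ^ (w ^ 2)) * 4 ^ b := by
      have := batch_small w c n hc
      have h4 : 4 ^ (n / 2) ≤ 4 ^ b := Nat.pow_le_pow_right (by norm_num) hb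
      have := Nat.div_mul_le_self (4 ^ b) (w ^ j)
      nlinarith [Nat.mul_le_mul_left (2 ^ (w ^ 2)) h4]
    have k2 : ((4 ^ b / w ^ j + 1 : ℕ) : ℝ) * w ^ j ≤ (1 + 2 ^ (w ^ 2)) * 4 ^ b := by
      exact_mod_cast k1
    have k3 := hg n
    rw [← hj] at k3
    have e1 : (r : ℝ) ^ j = (r / w) ^ j * w ^ j := by rw [← mul_pow]; congr 1; field_simp
    calc _ = (((4 ^ b / w ^ j + 1 : ℕ) : ℝ) * w ^ j) * (((j : ℝ) + 1) * (r / w) ^ j) *
          (D * 4 ^ a) := by rw [e1]; ring
      _ ≤ ((1 + 2 ^ (w ^ 2)) * 4 ^ b) * (F * ((n : ℝ) + 1) ^ γ) * (D * 4 ^ a) := by gcongr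
      _ = _ := by rw [← hab, pow_add]; ring
  have := K_split (γ := α) (B := Unit) (α := Fin (n / 2)) (β := Fin (n - n / 2))
    (by simp; omega) (key _ _ (by omega) (by omega)) (key _ _ (by omega) le_rfl)
  refine (this.sub (fun p => ((), p)) (fun p => ((), p)) (fun a b h => (Prod.ext_iff.1 h).2)
    (fun a b => by simp [bd])).mono (le_of_eq (by ring))

end Vale.Agent.P344
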