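import Vale.Agent.P344.Depth

namespace Vale.Agent.P344

open Matrix Finset

/-- The Fourier matrix of a root of unity. -/
def Fm (m : ℕ) (ω : ℂ) : Matrix (Fin m) (Fin m) ℂ := Matrix.of fun j k => ω ^ ((j : ℕ) * (k : ℕ))

lemma cooley {a b r s : ℕ} {ω : ℂ} (hω : ω ^ (a * b) = 1)
    (h1 : Dep r (bd fun _ : Fin b => Fm a (ω ^ b)))
    (h2 : Dep s (bd fun _ : Fin a => Fm b (ω ^ a))) : Dep (r + s) (Fm (a * b) ω) := by
  have h3 := (h1.mul_mono (Mono.diagonal fun p : Fin b × Fin a => ω ^ ((p.1 : ℕ) * (p.2 : ℕ)))).mul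
    (h2.reindex (Equiv.prodComm (Fin b) (Fin a)) (Equiv.prodComm (Fin b) (Fin a)))
  refine h3.of_eq (finProdFinEquiv.symm.trans (Equiv.prodComm (Fin a) (Fin b)))
    ((finCongr (mul_comm a b)).trans finProdFinEquiv.symm) ?_
  intro x y
  obtain ⟨⟨j1, j0⟩, rfl⟩ := finProdFinEquiv.surjective x
  obtain ⟨y, rfl⟩ := (finCongr (mul_comm b a)).surjective y
  obtain ⟨⟨k0, k1⟩, rfl⟩ := finProdFinEquiv.surjective y
  have e : (finCongr (mul_comm a b)) ((finCongr (mul_comm b a)) (finProdFinEquiv (k0, k1))) =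
    finProdFinEquiv (k0, k1) := by ext; simp
  simp only [Equiv.trans_apply, Equiv.symm_apply_apply, Equiv.prodComm_apply, Prod.swap, e]
  rw [Matrix.mul_apply, Finset.sum_eq_single (j0, k1)]
  · simp only [Fm, Matrix.mul_diagonal, bd, Matrix.of_apply, submatrix_apply,
      Equiv.prodComm_apply, Prod.swap, if_true, finCongr_apply, Fin.val_cast,
      finProdFinEquiv_apply_val, ← pow_mul, ← pow_add]
    rw [show ((j0 : ℕ) + b * j1) * (k1 + a * k0) =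
      (b * (j1 * k1) + j0 * k1 + a * (j0 * k0)) + (a * b) * (j1 * k0) by ring, pow_add,
      pow_mul ω (a * b), hω, one_pow, mul_one]
  · rintro ⟨u, v⟩ _ hne
    simp only [Matrix.mul_diagonal, bd, submatrix_apply, Equiv.prodComm_apply, Prod.swap]
    by_cases hu : j0 = u
    · subst hu
      have hv : v ≠ k1 := fun h => hne (by rw [h])
      simp [hv]
    · simp [hu]
  · simp

lemma dep_two (w : ℂ) : Dep 2 (Fm 2 w) := by
  have h1 : IsLayer (!![1, 1; 0, 1] : Matrix (Fin 2) (Fin 2) ℂ) :=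
    ⟨Unit, inferInstance, fun _ => 1, fun _ => 0, Function.injective_of_subsingleton _,
      Function.injective_of_subsingleton _, fun _ _ => by simp, fun x y => by
        fin_cases x <;> fin_cases y <;> simp⟩
  have h2 : IsLayer (!![1, 0; 1, 1] : Matrix (Fin 2) (Fin 2) ℂ) :=
    ⟨Unit, inferInstance, fun _ => 0, fun _ => 1, Function.injective_of_subsingleton _,
      Function.injective_of_subsingleton _, fun _ _ => by simp, fun x y => by
        fin_cases x <;> fin_cases y <;> simp⟩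
  have := (h2.dep.mul_mono (Mono.diagonal ![1, w - 1])).mul h1.dep
  convert this using 1
  ext x y
  fin_cases x <;> fin_cases y <;> 
    simp [Fm, Matrix.mul_apply, Fin.sum_univ_two, Matrix.vecMul_diagonal]

lemma fft (k : ℕ) : ∀ ω : ℂ, ω ^ (2 ^ k) = 1 → Dep (2 * k) (Fm (2 ^ k) ω) := by
  induction k with
  | zero =>
    intro ω _
    refine Mono.dep ⟨Equiv.refl _, fun _ => 1, fun x y => ?_⟩ _
    have hx : x = 0 := Subsingleton.elim (α := Fin 1) _ _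
    have hy : y = 0 := Subsingleton.elim (α := Fin 1) _ _
    simp [hx, hy, Fm]
  | succ k ih =>
    intro ω h
    exact cooley (a := 2 ^ k) (b := 2) h
      ((ih _ (by rw [← pow_mul, mul_comm]; exact h)).bd 2) ((dep_two _).bd _)

lemma orth {m : ℕ} {ω : ℂ} (h : IsPrimitiveRoot ω m) (t : ℤ) :
    ∑ ξ : Fin m, ω ^ ((ξ : ℕ) * t) = if (m : ℤ) ∣ t then (m : ℂ) else 0 := by
  have e : ∀ ξ : Fin m, ω ^ ((ξ : ℕ) * t) = (ω ^ t) ^ (ξ : ℕ) := fun ξ => by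
    rw [mul_comm, _root_.zpow_mul, _root_.zpow_natCast]
  simp only [e]
  split_ifs with ht
  · simp [(h.zpow_eq_one_iff_dvd t).2 ht]
  · have h1 : ω ^ t ≠ 1 := fun k => ht ((h.zpow_eq_one_iff_dvd t).1 k)
    rw [Fin.sum_univ_eq_sum_range (fun i => (ω ^ t) ^ i), geom_sum_eq h1, ← _root_.zpow_natCast,
      ← _root_.zpow_mul, mul_comm, _root_.zpow_mul, _root_.zpow_natCast, h.pow_eq_one]
    simp

lemma conv1 {m : ℕ} {ω : ℂ} (h : IsPrimitiveRoot ω m) (hm : 0 < m) (W : Finset ℤ) (τ : ℤ → ℂ)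
    (j k : Fin m) :
    (Fm m ω⁻¹ * diagonal (fun ξ : Fin m => (m : ℂ)⁻¹ * ∑ t ∈ W, τ t * ω ^ ((ξ : ℕ) * t)) *
      Fm m ω) j k = ∑ t ∈ W, if (m : ℤ) ∣ t + k - j then τ t else 0 := by
  have h0 : ω ≠ 0 := h.ne_zero hm.ne'
  have hm' : (m : ℂ) ≠ 0 := by exact_mod_cast hm.ne'
  rw [Matrix.mul_apply]
  simp only [Matrix.mul_diagonal, Fm, Matrix.of_apply, Finset.mul_sum, Finset.sum_mul]
  rw [Finset.sum_comm]
  refine Finset.sum_congr rfl fun t _ => ?_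
  have := orth h (t + k - j)
  calc _ = (m : ℂ)⁻¹ * τ t * ∑ ξ : Fin m, ω ^ ((ξ : ℕ) * (t + k - j)) := by
        rw [Finset.mul_sum]
        refine Finset.sum_congr rfl fun ξ _ => ?_
        rw [show ((ξ : ℕ) : ℤ) * (t + k - j) = (ξ : ℕ) * t + (((ξ : ℕ) * (k : ℕ) : ℕ) : ℤ) -
          (((j : ℕ) * (ξ : ℕ) : ℕ) : ℤ) by push_cast; ring, zpow_sub₀ h0, zpow_add₀ h0,
          _root_.zpow_natCast, _root_.zpow_natCast, inv_pow]
        field_simp
    _ = _ := by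
        rw [this]; split_ifs
        · field_simp
        · simp

lemma Fm_inv {m : ℕ} {ω : ℂ} (h : IsPrimitiveRoot ω m) (hm : 0 < m) :
    Fm m ω⁻¹ * diagonal (fun _ => (m : ℂ)⁻¹) * Fm m ω = 1 := by
  ext j k
  have := conv1 h hm {0} (fun _ => 1) j k
  simp only [Finset.sum_singleton, mul_zero, zpow_zero, mul_one, zero_add] at this
  rw [this, Matrix.one_apply]
  refine if_congr ⟨fun hd => ?_, fun hd => by simp [hd]⟩ rfl rfl
  have := Int.eq_zero_of_abs_lt_dvd hd (by rw [abs_lt]; omega)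
  ext; omega

lemma toep_shear {p k : ℕ} (hp : 2 * p ≤ 2 ^ k) (τ : ℤ → ℂ) (d1 d2 : Fin p → ℂ) :
    PDep (Fin (2 ^ k - p) ⊕ Fin (2 ^ k - p)) (16 * (k + 1))
      (Sh (Matrix.of fun i j : Fin p => d1 i * τ (i - j) * d2 j)) := by
  have hpos : 0 < 2 ^ k := by positivity
  have h := Complex.isPrimitiveRoot_exp (2 ^ k) hpos.ne'
  set ω := Complex.exp (2 * Real.pi * Complex.I / (2 ^ k : ℕ))
  have f1 := fft k ω h.pow_eq_one
  have f2 := fft k ω⁻¹ h.inv.pow_eq_one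
  have hi := Fm_inv h hpos
  set l : Fin (2 ^ k) → ℂ := fun ξ =>
    ((2 ^ k : ℕ) : ℂ)⁻¹ * ∑ t ∈ Finset.Ioo (-(p : ℤ)) p, τ t * ω ^ ((ξ : ℕ) * t) with hl
  have s1 : Dep (4 * 1) (Sh (diagonal l)) := by
    simpa using Sh_diag Sh_one l (fun _ => 1)
  have s2 : Dep (4 * (k + 1)) (Sh (Fm (2 ^ k) ω⁻¹ * diagonal l * Fm (2 ^ k) ω)) := by
    rw [Sh_conj _ (((Matrix.mul_assoc _ _ _).symm.trans hi)) hi]
    exact (((f2.blocks (f2.mul_mono (Mono.diagonal _))).mul s1).mul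
      ((Dep.mono_mul (Mono.diagonal _) f1).blocks f1)).le (by omega)
  let e : Fin p ⊕ Fin (2 ^ k - p) ≃ Fin (2 ^ k) := finSumFinEquiv.trans (finCongr (by omega))
  have s3 : Dep (4 * (k + 1))
      (Sh ((Fm (2 ^ k) ω⁻¹ * diagonal l * Fm (2 ^ k) ω).submatrix e e)) := by
    refine s2.of_eq (e.sumCongr e) (e.sumCongr e) ?_
    rintro (x | x) (y | y) <;> simp [Sh, Matrix.one_apply]
  have s4 := Sh_diag s3 (Sum.elim d1 0) (Sum.elim d2 0)
  refine Dep.le (s4.of_eq (Equiv.sumSumSumComm _ _ _ _) (Equiv.sumSumSumComm _ _ _ _) ?_)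
    (by omega)
  have key : ∀ i j : Fin p, (Fm (2 ^ k) ω⁻¹ * diagonal l * Fm (2 ^ k) ω) (e (Sum.inl i))
      (e (Sum.inl j)) = τ (i - j) := by
    intro i j
    rw [hl, conv1 h hpos, Finset.sum_eq_single ((i : ℤ) - j)]
    · simp [e]
    · intro t ht hne
      rw [if_neg]
      intro hd
      simp only [Finset.mem_Ioo] at ht
      have e1 : ((e (Sum.inl i) : ℕ) : ℤ) = i := by simp [e]
      have e2 : ((e (Sum.inl j) : ℕ) : ℤ) = j := by simp [e]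
      rw [e1, e2] at hd
      have := Int.eq_zero_of_abs_lt_dvd hd (by rw [abs_lt]; omega)
      omega
    · intro hn
      exact absurd (Finset.mem_Ioo.2 ⟨by omega, by omega⟩) hn
  generalize Fm (2 ^ k) ω⁻¹ * diagonal l * Fm (2 ^ k) ω = C at key
  rintro ((x | x) | (x | x)) ((y | y) | (y | y)) <;>
    simp [Sh, Matrix.one_apply, Equiv.sumSumSumComm, key]

lemma chirp {η : ℂ} (h : η ≠ 0) (j k : ℕ) :
    (η ^ 2) ^ (j * k) = η ^ (j ^ 2) * η ^ (-((j : ℤ) - k) ^ 2) * η ^ (k ^ 2) := by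
  rw [← pow_mul, ← _root_.zpow_natCast, ← _root_.zpow_natCast, ← _root_.zpow_natCast, ← zpow_add₀ h, ← zpow_add₀ h]
  congr 1
  push_cast; ring

lemma dep_odd {p k : ℕ} (hp : Odd p) (hk : 2 * p ≤ 2 ^ k) (hk' : 2 ^ k ≤ 4 * p) {ω : ℂ}
    (h : IsPrimitiveRoot ω p) (b : ℕ) (hb : 8 ≤ b) :
    Dep (1536 * (k + 1)) (bd fun _ : Fin b => Fm p ω) := by
  have hpos : 0 < p := hp.pos
  have hp' : (p : ℂ) ≠ 0 := by exact_mod_cast hpos.ne'
  obtain ⟨q, hq⟩ := hp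
  set η := ω ^ (q + 1) with hη
  have h0 : η ≠ 0 := pow_ne_zero _ (h.ne_zero hpos.ne')
  have h2 : η ^ 2 = ω := by
    rw [hη, ← pow_mul, show (q + 1) * 2 = p + 1 by omega, pow_succ, h.pow_eq_one, one_mul]
  have h3 : η ^ p = 1 := by rw [hη, ← pow_mul, mul_comm, pow_mul, h.pow_eq_one, one_pow]
  have s1 := toep_shear hk (fun t => η ^ (-t ^ 2)) (fun i : Fin p => η ^ ((i : ℕ) ^ 2))
    (fun i : Fin p => η ^ ((i : ℕ) ^ 2))
  have s2 := toep_shear hk (fun t => η⁻¹ ^ (-t ^ 2)) (fun i : Fin p => η⁻¹ ^ ((i : ℕ) ^ 2))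
    (fun i : Fin p => - (η⁻¹ ^ ((i : ℕ) ^ 2) * (p : ℂ)⁻¹))
  have e1 : Fm p ω = Matrix.of fun i j : Fin p =>
      η ^ ((i : ℕ) ^ 2) * η ^ (-((i : ℤ) - j) ^ 2) * η ^ ((j : ℕ) ^ 2) := by
    ext i j; simp only [Fm, Matrix.of_apply, ← h2]; exact chirp h0 i j
  have e2 : -(Fm p ω⁻¹ * diagonal (fun _ => (p : ℂ)⁻¹)) = Matrix.of fun i j : Fin p =>
      η⁻¹ ^ ((i : ℕ) ^ 2) * η⁻¹ ^ (-((i : ℤ) - j) ^ 2) * - (η⁻¹ ^ ((j : ℕ) ^ 2) * (p : ℂ)⁻¹) := by
    ext i j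
    simp only [Fm, Matrix.of_apply, ← h2, Matrix.neg_apply, Matrix.mul_diagonal, ← inv_pow]
    rw [chirp (inv_ne_zero h0) i j]; ring
  rw [← e1] at s1
  rw [← e2] at s2
  have s3 := inplace (mul_eq_one_comm.1 (Fm_inv h hpos)) s1 s2
    (fun ξ : Fin p => ∑ t ∈ Finset.Ico (0 : ℤ) p, η ^ (-t ^ 2) * ω ^ ((ξ : ℕ) * t))
  have s4 := ((Dep.pdep (r := 0) (Mono.diagonal fun i : Fin p => η ^ ((i : ℕ) ^ 2))).mul s3).mul
    (Dep.pdep (r := 0) (Mono.diagonal fun i : Fin p => η ^ ((i : ℕ) ^ 2)))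
  have e3 : Fm p ω = diagonal (fun i : Fin p => η ^ ((i : ℕ) ^ 2)) *
      (Fm p ω⁻¹ * diagonal (fun _ => (p : ℂ)⁻¹) * diagonal (fun ξ : Fin p =>
        ∑ t ∈ Finset.Ico (0 : ℤ) p, η ^ (-t ^ 2) * ω ^ ((ξ : ℕ) * t)) * Fm p ω) *
      diagonal (fun i : Fin p => η ^ ((i : ℕ) ^ 2)) := by
    ext i j
    rw [Matrix.mul_diagonal, Matrix.diagonal_mul, Matrix.mul_assoc (Fm p ω⁻¹),
      diagonal_mul_diagonal, conv1 h hpos, e1, Matrix.of_apply]
    congr 2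
    have hp0 : (0 : ℤ) < p := by exact_mod_cast hpos
    rw [Finset.sum_eq_single (((i : ℤ) - j) % p)]
    · obtain ⟨c, hc⟩ : (p : ℤ) ∣ ((i : ℤ) - j) % p + j - i := by
        have := Int.dvd_sub_self_of_emod_eq (rfl : ((i : ℤ) - j) % p = ((i : ℤ) - j) % p)
        convert this using 1; ring
      rw [if_pos ⟨c, hc⟩, show ((i : ℤ) - j) % p = (i - j) + p * c by linarith,
        show -(((i : ℤ) - j) + p * c) ^ 2 = -((i : ℤ) - j) ^ 2 +
          p * (-(2 * (i - j) * c + p * c ^ 2)) by ring, zpow_add₀ h0, _root_.zpow_mul, _root_.zpow_natCast, h3,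
        _root_.one_zpow, mul_one]
    · intro t ht hne
      rw [if_neg]
      rintro ⟨c, hc⟩
      apply hne
      simp only [Finset.mem_Ico] at ht
      rw [show (i : ℤ) - j = t + p * (-c) by linarith, Int.add_mul_emod_self_left,
        Int.emod_eq_of_lt ht.1 ht.2]
    · intro hn
      exact absurd (Finset.mem_Ico.2 ⟨Int.emod_nonneg _ hp0.ne', Int.emod_lt_of_pos _ hp0⟩) hn
  rw [← e3] at s4
  exact (all_blocks (c := 8) s4 (by norm_num) (by simp; omega) b hb).le (by omega)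

lemma dep_sq {p k : ℕ} (hp : Odd p) (h8 : 8 ≤ p) (hk : 2 * p ≤ 2 ^ k) (hk' : 2 ^ k ≤ 4 * p)
    {ω : ℂ} (h : IsPrimitiveRoot ω (p * p)) : Dep (3072 * (k + 1)) (Fm (p * p) ω) := by
  have h1 := dep_odd hp hk hk' (h.pow (by positivity) rfl) p h8
  exact (cooley h.pow_eq_one h1 h1).le (by omega)

end Vale.Agent.P344
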