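import Vale.Agent.P344.Stage

namespace Vale.Agent.P344

open Matrix Finset
open scoped Kronecker

/-- rank one matrices over the field with two elements -/
def atoms (ι : Type) : Set (Matrix ι ι (ZMod 2)) := {M | ∃ u v, M = vecMulVec u v}

section
variable {ι κ : Type}

lemma Len.neg {r : ℕ} {M : Matrix ι ι (ZMod 2)} (h : Len (atoms ι) r M) :
    Len (atoms ι) r (-M) := by
  refine h.of_eq ?_
  ext a b
  simp [ZMod.neg_eq_self_mod_two]

lemma Len.kron1 {s : ℕ} {M : Matrix ι ι (ZMod 2)} {N : Matrix κ κ (ZMod 2)}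
    (h : M ∈ atoms ι) (k : Len (atoms κ) s N) : Len (atoms (ι × κ)) s (M ⊗ₖ N) := by
  obtain ⟨l, rfl, h2, rfl⟩ := k
  induction l with
  | nil => exact Len.zero' (by simp)
  | cons y l ih =>
    rw [List.sum_cons, kronecker_add, List.length_cons, add_comm l.length]
    refine Len.add (Len.single ?_) (ih fun z hz => h2 z (List.mem_cons_of_mem _ hz))
    obtain ⟨u, v, rfl⟩ := h
    obtain ⟨u', v', rfl⟩ := h2 y List.mem_cons_self
    refine ⟨fun p => u p.1 * u' p.2, fun p => v p.1 * v' p.2, ?_⟩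
    ext p q
    simp [vecMulVec_apply]; ring

lemma Len.kron {r s : ℕ} {M : Matrix ι ι (ZMod 2)} {N : Matrix κ κ (ZMod 2)}
    (h : Len (atoms ι) r M) (k : Len (atoms κ) s N) :
    Len (atoms (ι × κ)) (r * s) (M ⊗ₖ N) := by
  obtain ⟨l, rfl, h2, rfl⟩ := h
  induction l with
  | nil => simpa using Len.zero
  | cons y l ih =>
    rw [List.sum_cons, add_kronecker, List.length_cons, add_mul, one_mul, add_comm _ s]
    exact Len.add (Len.kron1 (h2 y List.mem_cons_self) k)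
      (ih fun z hz => h2 z (List.mem_cons_of_mem _ hz))

variable [Fintype ι] [DecidableEq ι]

lemma elim_rel {M : Matrix ι ι (ZMod 2)} {s : Finset ι} {c r : ι → ι → ZMod 2}
    (hM : M = ∑ i ∈ s, vecMulVec (c i) (r i)) {w : ι → ZMod 2} {i0 : ι} (hi : i0 ∈ s)
    (hw : ∀ a, ∑ i ∈ s, w i * c i a = 0) (h1 : w i0 = 1) :
    M = ∑ i ∈ s.erase i0, vecMulVec (c i) (r i - w i • r i0) := by
  ext a b
  have h := hw a
  rw [← Finset.add_sum_erase s _ hi, h1, one_mul] at h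
  rw [hM, Matrix.sum_apply, Matrix.sum_apply, ← Finset.add_sum_erase s _ hi]
  simp only [vecMulVec_apply, Pi.sub_apply, Pi.smul_apply, smul_eq_mul, mul_sub,
    Finset.sum_sub_distrib]
  have : ∑ i ∈ s.erase i0, c i a * (w i * r i0 b) =
      (∑ i ∈ s.erase i0, w i * c i a) * r i0 b := by
    rw [Finset.sum_mul]; exact Finset.sum_congr rfl fun i _ => by ring
  rw [this, eq_neg_of_add_eq_zero_right h]
  ring

lemma cols (M : Matrix ι ι (ZMod 2)) :
    M = ∑ i ∈ univ, vecMulVec (fun a => M a i) (Pi.single i 1) := by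
  ext a b
  simp [Matrix.sum_apply, vecMulVec_apply, Pi.single_apply]

lemma len_all (M : Matrix ι ι (ZMod 2)) : Len (atoms ι) (Fintype.card ι) M :=
  (Len.sum (atom := atoms ι) univ _ fun _ _ => ⟨_, _, rfl⟩).of_eq (cols M).symm

lemma len_ker1 {M : Matrix ι ι (ZMod 2)} {w : ι → ZMod 2} {i0 : ι} (hw : M *ᵥ w = 0)
    (h1 : w i0 = 1) : Len (atoms ι) (Fintype.card ι - 1) M := by
  have := elim_rel (cols M) (mem_univ i0) (w := w)
    (fun a => by simpa [mulVec, dotProduct, mul_comm] using congrFun hw a) h1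
  have k := (Len.sum (atom := atoms ι) (univ.erase i0) _ fun _ _ => ⟨_, _, rfl⟩).of_eq this.symm
  rwa [Finset.card_erase_of_mem (mem_univ _), Finset.card_univ] at k

lemma len_ker2 {M : Matrix ι ι (ZMod 2)} {w w' : ι → ZMod 2} {i0 i1 : ι} (hw : M *ᵥ w = 0)
    (h1 : w i0 = 1) (hw' : M *ᵥ w' = 0) (h2 : w' i1 = 1) (h3 : w' i0 = 0) :
    Len (atoms ι) (Fintype.card ι - 1 - 1) M := by
  have hne : i1 ≠ i0 := by rintro rfl; rw [h2] at h3; exact one_ne_zero h3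
  have := elim_rel (cols M) (mem_univ i0) (w := w)
    (fun a => by simpa [mulVec, dotProduct, mul_comm] using congrFun hw a) h1
  have hm : i1 ∈ univ.erase i0 := Finset.mem_erase.2 ⟨hne, mem_univ _⟩
  have k2 := elim_rel this hm (w := w') (fun a => by
    have := congrFun hw' a
    simp only [mulVec, dotProduct, Pi.zero_apply] at this
    rw [← Finset.add_sum_erase univ _ (mem_univ i0), h3, mul_zero, zero_add] at this
    simpa [mul_comm] using this) h2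
  have k := (Len.sum (atom := atoms ι) ((univ.erase i0).erase i1) _
    fun _ _ => ⟨_, _, rfl⟩).of_eq k2.symm
  rwa [Finset.card_erase_of_mem hm, Finset.card_erase_of_mem (mem_univ _),
    Finset.card_univ] at k

end

abbrev I0 := Fin 3 × Fin 32
abbrev S0 := Fin 3 → Fin 32

def ind (R : Type) [Zero R] [One R] (s : S0) : I0 → R := fun i => if s i.1 = i.2 then 1 else 0

lemma ind_dot (R : Type) [CommSemiring R] (s t : S0) :
    ∑ i, ind R s i * ind R t i = (if s 0 = t 0 then 1 else 0) + (if s 1 = t 1 then 1 else 0) +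
      (if s 2 = t 2 then 1 else 0) := by
  have : ∀ a : Fin 3, ∑ x : Fin 32, ind R s (a, x) * ind R t (a, x) =
      if s a = t a then 1 else 0 := by
    intro a
    simp only [ind, mul_ite, mul_one, mul_zero, Finset.sum_ite_eq, mem_univ, if_true]
  rw [Fintype.sum_prod_type, Fin.sum_univ_three, this, this, this]

lemma S0_eq {s t : S0} : s = t ↔ s 0 = t 0 ∧ s 1 = t 1 ∧ s 2 = t 2 := by
  constructor
  · rintro rfl; simp
  · rintro ⟨a, b, c⟩
    funext i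
    fin_cases i <;> assumption

noncomputable def net0 : Net S0 (Option I0) where
  compat s t := ind (ZMod 2) s ⬝ᵥ ind (ZMod 2) t = 0
  symm s t h := by rwa [dotProduct_comm]
  side := Matrix.of fun s t => (if s = t then 1 else 0) - ((∑ i, ind ℂ s i * ind ℂ t i) - 1) / 2
  P := Matrix.of fun s j => Option.elim j (-1 / 2) (fun i => ind ℂ s i / 2)
  Q := Matrix.of fun j t => Option.elim j 1 (fun i => ind ℂ t i)
  sum := by
    ext s t
    simp only [Matrix.add_apply, Matrix.of_apply, Matrix.mul_apply, Fintype.sum_option,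
      Option.elim, Matrix.one_apply]
    have : ∑ i, ind ℂ s i / 2 * ind ℂ t i = (∑ i, ind ℂ s i * ind ℂ t i) / 2 := by
      rw [Finset.sum_div]; exact Finset.sum_congr rfl fun i _ => by ring
    rw [this]; ring
  hside s t h := by
    simp only [Matrix.of_apply, ind_dot, S0_eq] at h
    simp only [dotProduct, ind_dot]
    by_cases h0 : s 0 = t 0 <;> by_cases h1 : s 1 = t 1 <;> by_cases h2 : s 2 = t 2 <;>
      simp [h0, h1, h2] at h ⊢ <;> first | rfl | (norm_num at h)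

def Pm (s : S0) : Matrix I0 I0 (ZMod 2) := vecMulVec (ind (ZMod 2) s) (ind (ZMod 2) s)

lemma ind_self (s : S0) : ind (ZMod 2) s ⬝ᵥ ind (ZMod 2) s = 1 := by
  simp only [dotProduct, ind_dot]; simp; rfl

lemma Pm_mul (s t : S0) : Pm s *ᵥ ind (ZMod 2) t =
    (ind (ZMod 2) s ⬝ᵥ ind (ZMod 2) t) • ind (ZMod 2) s := by
  ext a
  simp only [Pm, mulVec, dotProduct, vecMulVec_apply, Pi.smul_apply, smul_eq_mul,
    Finset.sum_mul]
  exact Finset.sum_congr rfl fun i _ => by ring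

lemma lenP (s : S0) : Len (atoms I0) 1 (Pm s) := Len.single ⟨_, _, rfl⟩

lemma lenQ (s : S0) : Len (atoms I0) 95 (1 - Pm s) := by
  have := len_ker1 (M := 1 - Pm s) (w := ind (ZMod 2) s) (i0 := (0, s 0))
    (by rw [sub_mulVec, Pm_mul, ind_self]; simp) (by simp [ind])
  simpa using this

lemma lenQ2 (s t : S0) (h : net0.compat s t) : Len (atoms I0) 94 (1 - Pm s - Pm t) := by
  have h : ind (ZMod 2) s ⬝ᵥ ind (ZMod 2) t = 0 := h
  have hne : s ≠ t := by rintro rfl; rw [ind_self] at h; exact one_ne_zero h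
  obtain ⟨a, ha⟩ := Function.ne_iff.1 hne
  have := len_ker2 (M := 1 - Pm s - Pm t) (w := ind (ZMod 2) s) (w' := ind (ZMod 2) t)
    (i0 := (a, s a)) (i1 := (a, t a))
    (by rw [sub_mulVec, sub_mulVec, Pm_mul, Pm_mul, ind_self, dotProduct_comm, h]; simp)
    (by simp [ind])
    (by rw [sub_mulVec, sub_mulVec, Pm_mul, Pm_mul, ind_self, h]; simp)
    (by simp [ind]) (by simp [ind, Ne.symm ha])
  simpa using this

lemma len1 : Len (atoms I0) 96 (1 : Matrix I0 I0 (ZMod 2)) := by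
  have := len_all (1 : Matrix I0 I0 (ZMod 2))
  rwa [Fintype.card_prod, Fintype.card_fin, Fintype.card_fin] at this

abbrev K0 := I0 × I0 × I0

def t3 (X Y Z : Matrix I0 I0 (ZMod 2)) : Matrix K0 K0 (ZMod 2) := X ⊗ₖ (Y ⊗ₖ Z)

lemma t3_apply (X Y Z : Matrix I0 I0 (ZMod 2)) (p q : K0) :
    t3 X Y Z p q = X p.1 q.1 * (Y p.2.1 q.2.1 * Z p.2.2 q.2.2) := rfl

lemma Len.t3 {r s u : ℕ} {X Y Z : Matrix I0 I0 (ZMod 2)} (hX : Len (atoms I0) r X)
    (hY : Len (atoms I0) s Y) (hZ : Len (atoms I0) u Z) :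
    Len (atoms K0) (r * (s * u)) (t3 X Y Z) := hX.kron (hY.kron hZ)

lemma geo1 (s2 s3 : S0) : Geo (atoms K0) net0 (t3 1 1 1) 0 (t3 1 (Pm s2) (Pm s3))
    (fun s => t3 (Pm s) (Pm s2) (Pm s3)) 94 0 (96 * (95 * 96) + 96 * (1 * 95)) where
  hp s := Len.t3 (lenP s) (lenP s2) (lenP s3)
  h1 s := (Len.t3 (lenQ s) (lenP s2) (lenP s3)).of_eq (by
    ext p q; simp only [t3_apply, Matrix.sub_apply]; ring)
  h2 s t h := (Len.t3 (lenQ2 s t h) (lenP s2) (lenP s3)).of_eq (by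
    ext p q; simp only [t3_apply, Matrix.sub_apply]; ring)
  ho := Len.t3 len1 (lenP s2) (lenP s3)
  hn := (Len.t3 len1 (lenP s2) (lenP s3)).neg
  hb := Len.zero
  hb' := ((Len.t3 len1 (lenQ s2) len1).add (Len.t3 len1 (lenP s2) (lenQ s3))).of_eq (by
    ext p q; simp only [t3_apply, Matrix.sub_apply, Matrix.add_apply, Matrix.zero_apply]; ring)

lemma geo2 (s1 s3 : S0) : Geo (atoms K0) net0 (t3 1 1 1) (t3 (1 - Pm s1) 1 (Pm s3))
    (t3 (Pm s1) 1 (Pm s3)) (fun s => t3 (Pm s1) (Pm s) (Pm s3)) 94 (95 * (96 * 1))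
    (96 * (96 * 95)) where
  hp s := Len.t3 (lenP s1) (lenP s) (lenP s3)
  h1 s := (Len.t3 (lenP s1) (lenQ s) (lenP s3)).of_eq (by
    ext p q; simp only [t3_apply, Matrix.sub_apply]; ring)
  h2 s t h := (Len.t3 (lenP s1) (lenQ2 s t h) (lenP s3)).of_eq (by
    ext p q; simp only [t3_apply, Matrix.sub_apply]; ring)
  ho := Len.t3 (lenP s1) len1 (lenP s3)
  hn := (Len.t3 (lenP s1) len1 (lenP s3)).neg
  hb := Len.t3 (lenQ s1) len1 (lenP s3)
  hb' := (Len.t3 len1 len1 (lenQ s3)).of_eq (by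
    ext p q; simp only [t3_apply, Matrix.sub_apply, Matrix.add_apply]; ring)

lemma geo3 (s1 s2 : S0) : Geo (atoms K0) net0 (t3 1 1 1)
    (t3 (1 - Pm s1) 1 1 + t3 (Pm s1) (1 - Pm s2) 1)
    (t3 (Pm s1) (Pm s2) 1) (fun s => t3 (Pm s1) (Pm s2) (Pm s)) 94
    (95 * (96 * 96) + 1 * (95 * 96)) 0 where
  hp s := Len.t3 (lenP s1) (lenP s2) (lenP s)
  h1 s := (Len.t3 (lenP s1) (lenP s2) (lenQ s)).of_eq (by
    ext p q; simp only [t3_apply, Matrix.sub_apply]; ring)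
  h2 s t h := (Len.t3 (lenP s1) (lenP s2) (lenQ2 s t h)).of_eq (by
    ext p q; simp only [t3_apply, Matrix.sub_apply]; ring)
  ho := Len.t3 (lenP s1) (lenP s2) len1
  hn := (Len.t3 (lenP s1) (lenP s2) len1).neg
  hb := (Len.t3 (lenQ s1) len1 len1).add (Len.t3 (lenP s1) (lenQ s2) len1)
  hb' := Len.zero' (by
    ext p q; simp only [t3_apply, Matrix.sub_apply, Matrix.add_apply, Matrix.zero_apply]; ring)

abbrev D0 := S0 × S0 × S0
abbrev Z0 := (S0 × S0) × (S0 × S0 ⊕ Option I0)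

def e1 : D0 ⊕ D0 ≃ (S0 × S0) × (S0 ⊕ S0) where
  toFun := Sum.elim (fun s => (s.2, Sum.inl s.1)) (fun s => (s.2, Sum.inr s.1))
  invFun p := Sum.elim (fun s => Sum.inl (s, p.1)) (fun s => Sum.inr (s, p.1)) p.2
  left_inv := by rintro (s | s) <;> rfl
  right_inv := by rintro ⟨p, s | s⟩ <;> rfl

def e2 : D0 ⊕ D0 ≃ (S0 × S0) × (S0 ⊕ S0) where
  toFun := Sum.elim (fun s => ((s.1, s.2.2), Sum.inr s.2.1))
    (fun s => ((s.1, s.2.2), Sum.inl s.2.1))
  invFun p := Sum.elim (fun s => Sum.inr (p.1.1, s, p.1.2))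
    (fun s => Sum.inl (p.1.1, s, p.1.2)) p.2
  left_inv := by rintro (s | s) <;> rfl
  right_inv := by rintro ⟨p, s | s⟩ <;> rfl

def e3 : D0 ⊕ D0 ≃ (S0 × S0) × (S0 ⊕ S0) where
  toFun := Sum.elim (fun s => ((s.1, s.2.1), Sum.inl s.2.2))
    (fun s => ((s.1, s.2.1), Sum.inr s.2.2))
  invFun p := Sum.elim (fun s => Sum.inl (p.1.1, p.1.2, s))
    (fun s => Sum.inr (p.1.1, p.1.2, s)) p.2
  left_inv := by rintro (s | s) <;> rfl
  right_inv := by rintro ⟨p, s | s⟩ <;> rfl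

def Pi3 (s : D0) : Matrix K0 K0 (ZMod 2) := t3 (Pm s.1) (Pm s.2.1) (Pm s.2.2)

set_option synthInstance.maxSize 2000 in
lemma data_prot : ∃ r : ℕ, AP (atoms K0) (t3 1 1 1) ((Z0 ⊕ Z0) ⊕ Z0)
    (Sum.elim Pi3 (fun _ => 0)) (Sum.elim (fun _ => t3 1 1 1) (fun s => t3 1 1 1 - Pi3 s))
    (fromBlocks 0 (-1) 1 0 : Matrix (D0 ⊕ D0) (D0 ⊕ D0) ℂ) r ∧
    10 ^ 14 * r ≤ (10 ^ 14 - 339) *
      (Fintype.card ((D0 ⊕ D0) ⊕ ((Z0 ⊕ Z0) ⊕ Z0)) * Fintype.card K0) := by
  have a1 := AP.prod (fun g : S0 × S0 => stage_fwd (geo1 g.1 g.2)) e1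
    (m := Sum.elim Pi3 (fun _ => 0))
    (m' := Sum.elim (fun s => t3 1 (Pm s.2.1) (Pm s.2.2))
      (fun s => t3 1 (Pm s.2.1) (Pm s.2.2) - Pi3 s))
    (M' := fromBlocks 1 0 1 1)
    (by rintro (s | s) <;> simp [e1, Pi3]) (by rintro (s | s) <;> simp [e1, Pi3])
    (by rintro (⟨a, b⟩ | ⟨a, b⟩) (⟨c, d⟩ | ⟨c, d⟩) <;>
          simp [e1, bd, Matrix.one_apply, ite_and] <;> split_ifs <;> simp_all)
  have a1' := a1.move (l'' := Sum.elim (fun s => t3 (1 - Pm s.1) 1 (Pm s.2.2) + Pi3 s)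
      (fun s => t3 (1 - Pm s.1) 1 (Pm s.2.2))) (95 * (95 * 1)) (by
    rintro (s | s) <;>
    exact (Len.t3 (lenQ s.1) (lenQ s.2.1) (lenP s.2.2)).of_eq (by
      ext p q
      simp only [Pi3, Sum.elim_inl, Sum.elim_inr, t3_apply, Matrix.sub_apply, Matrix.add_apply]
      ring))
  have a2 := AP.prod (fun g : S0 × S0 => stage_bwd (geo2 g.1 g.2)) e2
    (m := Sum.elim (fun s => t3 (1 - Pm s.1) 1 (Pm s.2.2) + Pi3 s)
      (fun s => t3 (1 - Pm s.1) 1 (Pm s.2.2)))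
    (m' := Sum.elim (fun s => t3 (1 - Pm s.1) 1 (Pm s.2.2) + t3 (Pm s.1) 1 (Pm s.2.2))
      (fun s => t3 (1 - Pm s.1) 1 (Pm s.2.2) + t3 (Pm s.1) 1 (Pm s.2.2) - Pi3 s))
    (M' := fromBlocks 1 (-1) 0 1)
    (by rintro (s | s) <;> simp [e2, Pi3]) (by rintro (s | s) <;> simp [e2, Pi3])
    (by rintro (⟨a, b, b'⟩ | ⟨a, b, b'⟩) (⟨c, d, d'⟩ | ⟨c, d, d'⟩) <;>
          simp [e2, bd, Matrix.one_apply, ite_and] <;> split_ifs <;> simp_all)
  have a2' := a2.move (l'' := Sum.elim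
      (fun s => t3 (1 - Pm s.1) 1 1 + t3 (Pm s.1) (1 - Pm s.2.1) 1 + Pi3 s)
      (fun s => t3 (1 - Pm s.1) 1 1 + t3 (Pm s.1) (1 - Pm s.2.1) 1))
      (95 * (96 * 95) + 1 * (95 * 95)) (by
    rintro (s | s) <;>
    exact ((Len.t3 (lenQ s.1) len1 (lenQ s.2.2)).add
      (Len.t3 (lenP s.1) (lenQ s.2.1) (lenQ s.2.2))).of_eq (by
      ext p q
      simp only [Pi3, Sum.elim_inl, Sum.elim_inr, t3_apply, Matrix.sub_apply, Matrix.add_apply]
      ring))
  have a3 := AP.prod (fun g : S0 × S0 => stage_fwd (geo3 g.1 g.2)) e3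
    (m := Sum.elim
      (fun s => t3 (1 - Pm s.1) 1 1 + t3 (Pm s.1) (1 - Pm s.2.1) 1 + Pi3 s)
      (fun s => t3 (1 - Pm s.1) 1 1 + t3 (Pm s.1) (1 - Pm s.2.1) 1))
    (m' := Sum.elim (fun _ => t3 1 1 1) (fun s => t3 1 1 1 - Pi3 s))
    (M' := fromBlocks 1 0 1 1)
    (by rintro (s | s) <;> simp [e3, Pi3])
    (by
      rintro (s | s) <;> ext p q <;>
      simp only [e3, Equiv.coe_fn_mk, Pi3, Sum.elim_inl, Sum.elim_inr, t3_apply,
        Matrix.sub_apply, Matrix.add_apply] <;> ring)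
    (by rintro (⟨a, b, b'⟩ | ⟨a, b, b'⟩) (⟨c, d, d'⟩ | ⟨c, d, d'⟩) <;>
          simp [e3, bd, Matrix.one_apply, ite_and] <;> split_ifs <;> simp_all)
  have := (a1'.comp a2').comp a3
  have e : (fromBlocks 1 0 1 1 * (fromBlocks 1 (-1) 0 1 * fromBlocks 1 0 1 1) :
      Matrix (D0 ⊕ D0) (D0 ⊕ D0) ℂ) = fromBlocks 0 (-1) 1 0 := by
    simp [Matrix.fromBlocks_multiply]
  rw [e] at this
  refine ⟨_, this, ?_⟩
  simp only [stageCost, Fintype.card_sum, Fintype.card_prod, Fintype.card_fun, Fintype.card_fin,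
    Fintype.card_option]
  norm_num

lemma swap_cost {A D Z G : Type} [AddCommGroup A] [Fintype D] [DecidableEq D] [Fintype Z]
    [DecidableEq Z] [Fintype G] [DecidableEq G] (Ψ : A → Matrix G G ℂ) (top : A) (p : D → A)
    (h2 : ∀ s, top - p s - p s = top) {c : ℝ}
    (h : Cost (blk Ψ (Sum.elim (Sum.elim p (fun _ => 0)) (fun _ : Z => 0))
      (Sum.elim (Sum.elim (fun _ => top) (fun s => top - p s)) (fun _ => top))
      (fromBlocks (fromBlocks 0 (-1) 1 0) 0 0 1)) c) :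
    Cost (bd fun _ : (D ⊕ D) ⊕ Z => Ψ top)
      (Fintype.card ((D ⊕ D) ⊕ Z) * Fintype.card G + c) := by
  have hm := Cost.monomial (α := ((D ⊕ D) ⊕ Z) × G) (β := ((D ⊕ D) ⊕ Z) × G)
    (fun p => (Sum.map Sum.swap id p.1, p.2))
    (fun p => Sum.elim (Sum.elim (fun _ => 1) (fun _ => -1)) (fun _ => 1) p.1)
    (M := Matrix.of fun b a => if a = (Sum.map Sum.swap id b.1, b.2) then
      Sum.elim (Sum.elim (fun _ => 1) (fun _ => -1)) (fun _ => 1) b.1 else 0)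
    (fun _ _ => rfl)
  refine ((hm.mul h).sub id id Function.injective_id ?_).mono (le_of_eq ?_)
  · rintro ⟨w, x⟩ ⟨w', y⟩
    simp only [id, Matrix.mul_apply, Matrix.of_apply, ite_mul, zero_mul, Finset.sum_ite_eq',
      mem_univ, if_true]
    rcases w with ((w | w) | w) <;> rcases w' with ((w' | w') | w') <;>
      first
      | (simp [blk, bd]; done)
      | (by_cases hw : w = w'
         · subst hw; simp [blk, bd, h2]
         · simp [blk, bd, hw, Matrix.one_apply])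
  · rw [Fintype.card_prod]; push_cast; ring

lemma gadget_of {A D Z : Type} [AddCommGroup A] [Fintype D] [DecidableEq D] [Fintype Z]
    [DecidableEq Z] {atom : Set A} {top : A} {p : D → A}
    (h2 : ∀ s, top - p s - p s = top) {c : ℕ}
    (h : ∃ r : ℕ, AP atom top Z (Sum.elim p (fun _ => 0))
      (Sum.elim (fun _ => top) (fun s => top - p s))
      (fromBlocks 0 (-1) 1 0 : Matrix (D ⊕ D) (D ⊕ D) ℂ) r ∧
      10 ^ 14 * r ≤ (10 ^ 14 - 339) * (Fintype.card ((D ⊕ D) ⊕ Z) * c)) [Nonempty D] :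
    ∃ (W : Type) (_ : Fintype W) (_ : DecidableEq W) (r : ℕ) (C : ℝ),
    0 < Fintype.card W ∧ 10 ^ 14 * r ≤ (10 ^ 14 - 339) * (Fintype.card W * c) ∧
    ∀ (G : Type) [Fintype G] [DecidableEq G] (Ψ : A → Matrix G G ℂ) (a : ℝ),
      Rep atom Ψ a → Cost (bd fun _ : W => Ψ top) (r * a + C * Fintype.card G) := by
  obtain ⟨r, ⟨C, h⟩, hr⟩ := h
  refine ⟨(D ⊕ D) ⊕ Z, inferInstance, inferInstance, r,
    C + Fintype.card ((D ⊕ D) ⊕ Z), Fintype.card_pos, hr, fun G _ _ Ψ a hR => ?_⟩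
  refine (swap_cost Ψ top p h2 (h G Ψ a hR)).mono (le_of_eq ?_)
  ring

set_option synthInstance.maxSize 2000 in
/-- The finite saving: `|W|` copies of the full transform cost fewer than `|W| * |K0|` unit
moves. -/
theorem gadget : ∃ (W : Type) (_ : Fintype W) (_ : DecidableEq W) (r : ℕ) (C : ℝ),
    0 < Fintype.card W ∧
    10 ^ 14 * r ≤ (10 ^ 14 - 339) * (Fintype.card W * Fintype.card K0) ∧
    ∀ (G : Type) [Fintype G] [DecidableEq G] (Ψ : Matrix K0 K0 (ZMod 2) → Matrix G G ℂ) (a : ℝ),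
      Rep (atoms K0) Ψ a → Cost (bd fun _ : W => Ψ 1) (r * a + C * Fintype.card G) := by
  have h1 : t3 1 1 1 = 1 := by simp [t3]
  have h2 : ∀ s, t3 1 1 1 - Pi3 s - Pi3 s = t3 1 1 1 := fun s => by
    ext p q
    simp only [Matrix.sub_apply]
    generalize Pi3 s p q = z
    generalize (t3 1 1 1 : Matrix K0 K0 (ZMod 2)) p q = y
    revert z y; decide
  have := gadget_of h2 data_prot
  rwa [h1] at this

lemma card_K0 : 2 ≤ Fintype.card K0 ∧ Fintype.card K0 ≤ 2 ^ 20 := by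
  simp only [Fintype.card_prod, Fintype.card_fin]; norm_num

theorem gadget' : ∃ (κ W : Type) (_ : Fintype κ) (_ : DecidableEq κ) (_ : Fintype W)
    (_ : DecidableEq W) (r : ℕ) (C : ℝ),
    (2 ≤ Fintype.card κ ∧ Fintype.card κ ≤ 2 ^ 20) ∧ 0 < Fintype.card W ∧
    10 ^ 14 * r ≤ (10 ^ 14 - 339) * (Fintype.card W * Fintype.card κ) ∧
    ∀ (G : Type) [Fintype G] [DecidableEq G] (Ψ : Matrix κ κ (ZMod 2) → Matrix G G ℂ) (a : ℝ),
      Rep (atoms κ) Ψ a → Cost (bd fun _ : W => Ψ 1) (r * a + C * Fintype.card G) :=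
  let ⟨W, i1, i2, r, C, h⟩ := gadget
  ⟨K0, W, _, _, i1, i2, r, C, card_K0, h⟩

end Vale.Agent.P344
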