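import Vale.Agent.P344.Fast

namespace Vale.Agent.P344

open Matrix Finset
open scoped Kronecker

/-- Tensor product of a family of matrices. -/
def piK {ι : Type} [Fintype ι] {α : ι → Type} (M : ∀ i, Matrix (α i) (α i) ℂ) :
    Matrix (∀ i, α i) (∀ i, α i) ℂ := Matrix.of fun p q => ∏ i, M i (p i) (q i)

lemma piK_mul {ι : Type} [Fintype ι] [DecidableEq ι] {α : ι → Type} [∀ i, Fintype (α i)]
    (M N : ∀ i, Matrix (α i) (α i) ℂ) : piK (fun i => M i * N i) = piK M * piK N := by
  ext p q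
  simp only [piK, Matrix.of_apply, Matrix.mul_apply]
  rw [Finset.prod_univ_sum, Fintype.piFinset_univ]
  exact Finset.sum_congr rfl fun r _ => Finset.prod_mul_distrib

def Mono {α : Type} [DecidableEq α] (M : Matrix α α ℂ) : Prop :=
  ∃ (π : α ≃ α) (d : α → ℂ), ∀ x y, M x y = if y = π x then d x else 0

lemma Mono.diagonal {α : Type} [DecidableEq α] (d : α → ℂ) : Mono (diagonal d) :=
  ⟨Equiv.refl _, d, fun x y => by simp [Matrix.diagonal_apply, eq_comm]⟩

lemma piK_mono {ι : Type} [Fintype ι] [DecidableEq ι] {α : ι → Type} [∀ i, Fintype (α i)]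
    [∀ i, DecidableEq (α i)] {M : ∀ i, Matrix (α i) (α i) ℂ} (h : ∀ i, Mono (M i)) :
    Cost (piK M) (∏ i, (Fintype.card (α i) : ℝ)) := by
  choose π d h using h
  have := Cost.monomial (M := piK M) (fun p i => π i (p i)) (fun p => ∏ i, d i (p i)) (by
    intro p q
    simp only [piK, Matrix.of_apply, h]
    split_ifs with hq
    · simp [hq]
    · obtain ⟨i, hi⟩ := Function.ne_iff.1 hq
      exact Finset.prod_eq_zero (mem_univ i) (if_neg hi))
  simpa using this

noncomputable def H2 : Matrix (ZMod 2) (ZMod 2) ℂ := Matrix.of fun a b => sgn (a * b)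

def Zm : Matrix (ZMod 2) (ZMod 2) ℂ := Matrix.of fun a b => if a = 1 ∧ b = 0 then 0 else 1

lemma sgn_sq (a : ZMod 2) : sgn a * sgn a = 1 := by
  rw [← sgn_add, CharTwo.add_self_eq_zero, sgn_zero]

theorem H_fast : ∃ γ C : ℝ, 0 < γ ∧ γ < 1 - 2 / 10 ^ 13 ∧ 0 ≤ C ∧
    ∀ (α : Type) [Fintype α] [DecidableEq α], Cost (piK fun _ : α => H2)
      (C * 2 ^ Fintype.card α * ((Fintype.card α : ℝ) + 1) ^ γ) := by
  obtain ⟨γ, C, g0, g1, hC, h⟩ := K_fast
  refine ⟨γ, 4 + 2 * C, g0, g1, by positivity, fun α _ _ => ?_⟩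
  set n := Fintype.card α with hn
  set m := (n + 1) / 2 with hm
  obtain ⟨i⟩ : Nonempty (α ↪ Fin m ⊕ Fin m) :=
    Function.Embedding.nonempty_of_card_le (by simp; omega)
  have c1 := Cost.monomial (M := diagonal fun p : V (Fin m) × V (Fin m) =>
    2 ^ m * sgn (p.1 ⬝ᵥ p.2)) id (fun p => 2 ^ m * sgn (p.1 ⬝ᵥ p.2))
    (fun a b => by simp [Matrix.diagonal_apply, eq_comm])
  have c2 := Cost.monomial (M := diagonal fun p : V (Fin m) × V (Fin m) =>
    sgn (p.1 ⬝ᵥ p.2)) id (fun p => sgn (p.1 ⬝ᵥ p.2))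
    (fun a b => by simp [Matrix.diagonal_apply, eq_comm])
  let E (p : V α) : V (Fin m ⊕ Fin m) := Function.extend i p 0
  have hE : ∀ p q : V α, p ⬝ᵥ q = E p ⬝ᵥ E q := by
    intro p q
    simp only [dotProduct]
    rw [← Finset.sum_subset (Finset.subset_univ (Finset.univ.map i))]
    · rw [Finset.sum_map]
      exact Finset.sum_congr rfl fun a _ => by simp [E, i.injective.extend_apply]
    · intro a _ ha
      simp only [E]
      rw [Function.extend_apply']
      · simp
      · rintro ⟨a', rfl⟩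
        exact ha (Finset.mem_map_of_mem _ (mem_univ _))
  refine (((c1.mul (h (Fin m))).mul c2).sub (fun p => (E p ∘ Sum.inl, E p ∘ Sum.inr))
    (fun p => (E p ∘ Sum.inr, E p ∘ Sum.inl)) ?_ ?_).mono ?_
  · intro p q he
    simp only [Prod.mk.injEq] at he
    have : E p = E q := by
      funext a; rcases a with a | a
      exacts [congrFun he.2 a, congrFun he.1 a]
    funext a
    simpa [E, i.injective.extend_apply] using congrFun this (i a)
  · intro p q
    have e1 : piK (fun _ : α => H2) p q = sgn (p ⬝ᵥ q) := by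
      simp [piK, H2, dotProduct, sgn_sum]
    have e2 : E p ⬝ᵥ E q = (E p ∘ Sum.inl) ⬝ᵥ (E q ∘ Sum.inl) +
        (E p ∘ Sum.inr) ⬝ᵥ (E q ∘ Sum.inr) := by simp [dotProduct]
    rw [e1, hE, e2]
    simp only [Matrix.mul_diagonal, Matrix.diagonal_mul, Kmat, Matrix.of_apply, add_dotProduct,
      dotProduct_add, sgn_add, Fintype.card_fin]
    rw [dotProduct_comm (E q ∘ Sum.inr) (E p ∘ Sum.inr)]
    have k : (2 : ℂ) ^ m * (1 / 2) ^ m = 1 := by rw [← mul_pow]; norm_num
    have s1 := sgn_sq ((E p ∘ Sum.inl) ⬝ᵥ (E p ∘ Sum.inr))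
    have s2 := sgn_sq ((E q ∘ Sum.inr) ⬝ᵥ (E q ∘ Sum.inl))
    generalize sgn ((E p ∘ Sum.inl) ⬝ᵥ (E p ∘ Sum.inr)) = a at *
    generalize sgn ((E q ∘ Sum.inr) ⬝ᵥ (E q ∘ Sum.inl)) = b at *
    generalize sgn ((E p ∘ Sum.inl) ⬝ᵥ (E q ∘ Sum.inl)) = x at *
    generalize sgn ((E p ∘ Sum.inr) ⬝ᵥ (E q ∘ Sum.inr)) = y at *
    calc x * y = (2 ^ m * (1 / 2) ^ m) * (a * a) * (b * b) * (x * y) := by rw [k, s1, s2]; ring
      _ = _ := by ring
  · rw [card_VV]
    simp only [Fintype.card_fin]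
    have k1 : (4 : ℝ) ^ m ≤ 2 * 2 ^ n := by
      rw [show (4 : ℝ) = 2 ^ 2 by norm_num, ← pow_mul, ← pow_succ']
      exact pow_le_pow_right₀ (by norm_num) (by omega)
    have k2 : ((m : ℝ) + 1) ^ γ ≤ ((n : ℝ) + 1) ^ γ := by
      have : (m : ℝ) ≤ n := by exact_mod_cast (by omega : m ≤ n)
      gcongr
    have k3 : 1 ≤ ((n : ℝ) + 1) ^ γ := Real.one_le_rpow (by simp) g0.le
    have k4 : C * 4 ^ m * ((m : ℝ) + 1) ^ γ ≤ C * (2 * 2 ^ n) * ((n : ℝ) + 1) ^ γ := by gcongr
    have k5 : (0 : ℝ) ≤ 2 ^ n := by positivity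
    push_cast
    nlinarith

lemma Zm_eq : Zm = diagonal (fun a => if a = 0 then 1 else 5 / 4) * H2 *
    diagonal (fun a => if a = 0 then 3 / 2 else 1 / 2) * H2 *
    diagonal (fun a => if a = 0 then 2 else -1) * H2 *
    diagonal (fun a => if a = 0 then 1 / 3 else 1 / 5) := by
  ext a b
  simp only [Matrix.mul_diagonal, Matrix.diagonal_mul, Matrix.mul_apply (M := _ * diagonal _),
    sum_zmod2]
  rcases zmod2_cases a with rfl | rfl <;> rcases zmod2_cases b with rfl | rfl <;>
    simp [Zm, H2, sgn] <;> norm_num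

theorem Z_fast : ∃ γ C : ℝ, 0 < γ ∧ γ < 1 - 2 / 10 ^ 13 ∧ 0 ≤ C ∧
    ∀ (α : Type) [Fintype α] [DecidableEq α], Cost (piK fun _ : α => Zm)
      (C * 2 ^ Fintype.card α * ((Fintype.card α : ℝ) + 1) ^ γ) := by
  obtain ⟨γ, C, g0, g1, hC, h⟩ := H_fast
  refine ⟨γ, 4 + 3 * C, g0, g1, by positivity, fun α _ _ => ?_⟩
  have d : ∀ f : ZMod 2 → ℂ, Cost (piK fun _ : α => diagonal f) (2 ^ Fintype.card α) :=
    fun f => by simpa using piK_mono (M := fun _ : α => diagonal f) fun _ => Mono.diagonal f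
  rw [Zm_eq]
  simp only [piK_mul]
  refine (((((((d _).mul (h α)).mul (d _)).mul (h α)).mul (d _)).mul (h α)).mul (d _)).mono ?_
  have k3 : 1 ≤ ((Fintype.card α : ℝ) + 1) ^ γ := Real.one_le_rpow (by simp) g0.le
  have k5 : (0 : ℝ) ≤ 2 ^ Fintype.card α := by positivity
  nlinarith

/-- A layer of disjoint additions `x (t b) += x (s b)`. -/
def IsLayer {α : Type} [DecidableEq α] (L : Matrix α α ℂ) : Prop :=
  ∃ (β : Type) (_ : Fintype β) (s t : β → α), Function.Injective s ∧ Function.Injective t ∧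
    (∀ b b', t b ≠ s b') ∧
    ∀ x y, L x y = (if x = y then 1 else 0) + ∑ b, if x = t b ∧ y = s b then 1 else 0

lemma Cost.rows2 {α β β1 β2 : Type} [Fintype α] {M : Matrix β α ℂ} {c1 c2 : ℝ} (r1 : β1 → β)
    (r2 : β2 → β) (h1 : Cost (M.submatrix r1 id) c1) (h2 : Cost (M.submatrix r2 id) c2)
    (hr : ∀ b, (∃ d, r1 d = b) ∨ ∃ d, r2 d = b) : Cost M (c1 + c2) := by
  intro n g hg f hf
  obtain ⟨g1, k1, k2, k3, k4⟩ := h1 n g hg f hf
  obtain ⟨g2, l1, l2, l3, l4⟩ := h2 n g1 k1 f (fun a => k3 _ (hf a))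
  refine ⟨g2, l1, by linarith, fun u hu => l3 u (k3 u hu), fun b => ?_⟩
  rcases hr b with ⟨d, rfl⟩ | ⟨d, rfl⟩
  · exact l3 _ (k4 d)
  · exact l4 d

lemma layer_cost {γ C : ℝ} (g0 : 0 < γ) (hC : 0 ≤ C)
    (h : ∀ (α : Type) [Fintype α] [DecidableEq α], Cost (piK fun _ : α => Zm)
      (C * 2 ^ Fintype.card α * ((Fintype.card α : ℝ) + 1) ^ γ)) (d : ℕ) :
    ∀ (α : Fin d → Type) [∀ i, Fintype (α i)] [∀ i, DecidableEq (α i)]
      (L : ∀ i, Matrix (α i) (α i) ℂ), (∀ i, IsLayer (L i)) →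
      ∀ (g : Type) [Fintype g] [DecidableEq g], Cost ((piK fun _ : g => Zm) ⊗ₖ piK L)
        (C * 2 ^ Fintype.card g * (∏ i, (Fintype.card (α i) : ℝ)) *
          ((Fintype.card g : ℝ) + d + 1) ^ γ) := by
  classical
  induction d with
  | zero =>
    intro α _ _ L _ g _ _
    refine ((h g).sub Prod.fst Prod.fst ?_ ?_).mono (by simp)
    · rintro ⟨a, b⟩ ⟨a', b'⟩ he
      exact Prod.ext he (Subsingleton.elim _ _)
    · intro a b; simp [piK]
  | succ d ih =>
    intro α _ _ L hL g _ _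
    obtain ⟨β, _, s, t, hs, ht, hd, hL0⟩ := hL 0
    have i1 := ih (fun i => α i.succ) (fun i => L i.succ) (fun i => hL _) (Option g)
    have i2 := ih (fun i => α i.succ) (fun i => L i.succ) (fun i => hL _) g
    let U := {x : α 0 // ∀ b, x ≠ t b ∧ x ≠ s b}
    let r1 (b : β) (p : V (Option g) × ∀ i : Fin d, α i.succ) : V g × ∀ i, α i :=
      (p.1 ∘ some, Fin.cons (if p.1 none = 0 then t b else s b) p.2)
    let r2 (x : U) (p : V g × ∀ i : Fin d, α i.succ) : V g × ∀ i, α i :=
      (p.1, Fin.cons x.1 p.2)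
    have hsum : ∀ b y, (∑ b', if t b = t b' ∧ y = s b' then (1 : ℂ) else 0) =
        if y = s b then 1 else 0 := by
      intro b y
      rw [Finset.sum_eq_single b]
      · simp
      · intro b' _ hb; rw [if_neg]; exact fun k => hb (ht k.1).symm
      · simp
    have hsum' : ∀ b y, (∑ b', if s b = t b' ∧ y = s b' then (1 : ℂ) else 0) = 0 :=
      fun b y => Finset.sum_eq_zero fun b' _ => if_neg fun k => hd b' b k.1.symm
    have c1 : ∀ b, Cost (((piK fun _ : g => Zm) ⊗ₖ piK L).submatrix (r1 b) id)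
        ((C * 2 ^ Fintype.card (Option g) * ∏ i : Fin d, (Fintype.card (α i.succ) : ℝ)) *
          ((Fintype.card (Option g) : ℝ) + d + 1) ^ γ) := by
      intro b
      refine i1.ext (r1 b) ?_ ?_ ?_
      · rintro ⟨p, x⟩ ⟨q, y⟩ he
        simp only [r1, Prod.mk.injEq, Fin.cons_inj] at he
        obtain ⟨h1, h2, h3⟩ := he
        refine Prod.ext (funext ?_) h3
        rintro (_ | a)
        · rcases zmod2_cases (p none) with k | k <;> rcases zmod2_cases (q none) with l | l <;>
            simp [k, l, hd, (hd b b).symm] at h2 ⊢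
        · exact congrFun h1 a
      · rintro ⟨p, x⟩ ⟨q, y⟩
        simp only [r1, submatrix_apply, id, kroneckerMap_apply, piK, Matrix.of_apply,
          Fintype.prod_option, Fin.prod_univ_succ, Fin.cons_zero, Fin.cons_succ,
          Function.comp_apply, hL0]
        rcases zmod2_cases (p none) with k | k <;> rcases zmod2_cases (q none) with l | l <;>
          simp only [k, l, if_true, one_ne_zero, if_false, hsum, hsum', hd, (hd b b).symm] <;>
          simp [Zm]
      · rintro ⟨p, x⟩ ⟨q, y⟩ h0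
        have hy : y 0 ≠ t b ∧ y 0 ≠ s b := by
          constructor
          · intro k
            refine h0 (fun o => Option.elim o 0 q, Fin.tail y) ?_
            simp only [r1, Option.elim, if_true, ← k, Fin.cons_self_tail]
            rfl
          · intro k
            refine h0 (fun o => Option.elim o 1 q, Fin.tail y) ?_
            simp only [r1, Option.elim, one_ne_zero, if_false, ← k, Fin.cons_self_tail]
            rfl
        simp only [r1, submatrix_apply, id, kroneckerMap_apply, piK, Matrix.of_apply,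
          Fin.prod_univ_succ, Fin.cons_zero, hL0]
        rcases zmod2_cases (p none) with k | k <;>
          simp only [k, if_true, one_ne_zero, if_false, hsum, hsum'] <;>
          simp [hy.1, hy.2, hy.1.symm, hy.2.symm]
    have c2 : ∀ x, Cost (((piK fun _ : g => Zm) ⊗ₖ piK L).submatrix (r2 x) id)
        ((C * 2 ^ Fintype.card g * ∏ i : Fin d, (Fintype.card (α i.succ) : ℝ)) *
          ((Fintype.card g : ℝ) + d + 1) ^ γ) := by
      intro x
      have hx : ∀ y, L 0 x.1 y = if x.1 = y then 1 else 0 := by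
        intro y
        rw [hL0, Finset.sum_eq_zero fun b _ => if_neg fun k => (x.2 b).1 k.1, add_zero]
      refine i2.ext (r2 x) ?_ ?_ ?_
      · rintro ⟨p, x⟩ ⟨q, y⟩ he
        simpa [r2] using he
      · rintro ⟨p, z⟩ ⟨q, y⟩
        simp [r2, piK, Fin.prod_univ_succ, hx]
      · rintro ⟨p, z⟩ ⟨q, y⟩ h0
        have hy : x.1 ≠ y 0 := by
          intro k
          refine h0 (q, Fin.tail y) ?_
          simp only [r2, k, Fin.cons_self_tail]
        simp [r2, piK, Fin.prod_univ_succ, hx, hy]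
    have d1 := Cost.rows (M := ((piK fun _ : g => Zm) ⊗ₖ piK L).submatrix
      (fun p : β × _ => r1 p.1 p.2) id) (δ := fun _ => _) _ (fun b p => (b, p)) c1
      (fun p => ⟨p.1, p.2, rfl⟩)
    have d2 := Cost.rows (M := ((piK fun _ : g => Zm) ⊗ₖ piK L).submatrix
      (fun p : U × _ => r2 p.1 p.2) id) (δ := fun _ => _) _ (fun b p => (b, p)) c2
      (fun p => ⟨p.1, p.2, rfl⟩)
    refine (Cost.rows2 _ _ d1 d2 ?_).mono ?_
    · rintro ⟨q, y⟩
      by_cases hy : ∀ b, y 0 ≠ t b ∧ y 0 ≠ s b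
      · exact Or.inr ⟨(⟨y 0, hy⟩, (q, Fin.tail y)), by simp [r2]⟩
      · left
        simp only [not_forall, not_and_or, not_not] at hy
        obtain ⟨b, k | k⟩ := hy
        · refine ⟨(b, (fun o => Option.elim o 0 q, Fin.tail y)), ?_⟩
          simp only [r1, Option.elim, if_true, ← k, Fin.cons_self_tail]
          rfl
        · refine ⟨(b, (fun o => Option.elim o 1 q, Fin.tail y)), ?_⟩
          simp only [r1, Option.elim, one_ne_zero, if_false, ← k, Fin.cons_self_tail]
          rfl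
    · have hcard : Fintype.card ((β ⊕ β) ⊕ U) ≤ Fintype.card (α 0) := by
        refine Fintype.card_le_of_injective (Sum.elim (Sum.elim t s) Subtype.val) ?_
        rintro ((a | a) | a) ((b | b) | b) he <;> simp only [Sum.elim_inl, Sum.elim_inr] at he
        · rw [ht he]
        · exact absurd he (hd _ _)
        · exact absurd he.symm (b.2 a).1
        · exact absurd he.symm (hd _ _)
        · rw [hs he]
        · exact absurd he.symm (b.2 a).2
        · exact absurd he (a.2 b).1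
        · exact absurd he (a.2 b).2
        · rw [Subtype.ext he]
      simp only [Fintype.card_sum] at hcard
      have hc' : (Fintype.card β : ℝ) + Fintype.card β + Fintype.card U ≤
        Fintype.card (α 0) := by exact_mod_cast hcard
      simp only [Finset.sum_const, Finset.card_univ, nsmul_eq_mul, Fintype.card_option,
        Fin.prod_univ_succ]
      push_cast
      set P := ∏ i : Fin d, (Fintype.card (α i.succ) : ℝ)
      have hP : 0 ≤ P := by positivity
      have k1 : ((Fintype.card g : ℝ) + d + 1) ^ γ ≤ ((Fintype.card g : ℝ) + (d + 1) + 1) ^ γ := by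
        gcongr; linarith
      have e : (Fintype.card g : ℝ) + 1 + d + 1 = (Fintype.card g : ℝ) + (d + 1) + 1 := by ring
      rw [e]
      set X := ((Fintype.card g : ℝ) + (d + 1) + 1) ^ γ
      have hX : 0 ≤ X := by positivity
      have k2 : (Fintype.card U : ℝ) * (C * 2 ^ Fintype.card g * P *
          ((Fintype.card g : ℝ) + d + 1) ^ γ) ≤
          (Fintype.card U : ℝ) * (C * 2 ^ Fintype.card g * P * X) := by gcongr
      have k3 : ((Fintype.card β : ℝ) + Fintype.card β + Fintype.card U) *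
          (C * 2 ^ Fintype.card g * P * X) ≤
          Fintype.card (α 0) * (C * 2 ^ Fintype.card g * P * X) := by gcongr
      rw [pow_succ]
      nlinarith

/-- Products of `r` layers of additions interleaved with monomial matrices. -/
def Dep {α : Type} [Fintype α] [DecidableEq α] : ℕ → Matrix α α ℂ → Prop
  | 0, M => Mono M
  | r + 1, M => ∃ D L M', Mono D ∧ IsLayer L ∧ Dep r M' ∧ M = D * L * M'

theorem dep_cost : ∃ γ C : ℝ, 0 < γ ∧ γ < 1 - 2 / 10 ^ 13 ∧ 0 ≤ C ∧
    ∀ (d r : ℕ) (α : Fin d → Type) [∀ i, Fintype (α i)] [∀ i, DecidableEq (α i)]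
      (M : ∀ i, Matrix (α i) (α i) ℂ), (∀ i, Dep r (M i)) →
      Cost (piK M) (C * (r + 1) * (∏ i, (Fintype.card (α i) : ℝ)) * ((d : ℝ) + 1) ^ γ) := by
  obtain ⟨γ, C, g0, g1, hC, h⟩ := Z_fast
  refine ⟨γ, C + 1, g0, g1, by positivity, fun d r α _ _ => ?_⟩
  have k3 : 1 ≤ ((d : ℝ) + 1) ^ γ := Real.one_le_rpow (by simp) g0.le
  set P := ∏ i, (Fintype.card (α i) : ℝ) with hP
  have hP0 : 0 ≤ P := by positivity
  induction r with
  | zero =>
    intro M hM
    refine (piK_mono hM).mono ?_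
    rw [← hP]
    have : 0 ≤ C * (P * ((d : ℝ) + 1) ^ γ) := by positivity
    push_cast
    nlinarith
  | succ r ih =>
    intro M hM
    choose D L M' h1 h2 h3 h4 using hM
    have e : M = fun i => D i * L i * M' i := funext h4
    have c := layer_cost g0 hC h d α L h2 Empty
    have c' : Cost (piK L) (C * P * ((d : ℝ) + 1) ^ γ) := by
      refine (c.sub (fun p => (default, p)) (fun p => (default, p))
        (fun a b h => (Prod.ext_iff.1 h).2) (fun a b => by simp [piK])).mono (le_of_eq ?_)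
      simp [hP]
    rw [e, piK_mul, piK_mul]
    refine (((piK_mono h1).mul c').mul (ih M' h3)).mono ?_
    rw [← hP]
    push_cast
    nlinarith

end Vale.Agent.P344
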