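import Vale.Agent.P344.Four

namespace Vale.Agent.P344

open Matrix Finset

lemma many_primes (i : ℕ) : 2 ^ i + 8 ≤ (Nat.primesLE (2 ^ (2 * i + 7))).card := by
  set j := 2 * i + 7 with hj
  set c := (Nat.primesLE (2 ^ j)).card with hc
  have h1 := Chebyshev.two_pow_le_mul_lcmUpto (2 ^ j)
  have h2 : Nat.lcmUpto (2 ^ j) ≤ (2 ^ j) ^ c := by
    rw [Nat.lcmUpto_eq_prod_pow_log]
    exact Finset.prod_le_pow_card _ _ _ fun p _ => Nat.pow_log_le_self p (by positivity)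
  have h3 : 2 ^ j + 1 ≤ 2 ^ (j + 1) := by
    have : 0 < 2 ^ j := by positivity
    rw [pow_succ 2 j]; omega
  have h4 : 2 ^ (2 ^ j) ≤ 2 ^ (j + 1 + j * c) := by
    rw [pow_add _ (j + 1), pow_mul]
    exact h1.trans (Nat.mul_le_mul h3 h2)
  have h5 := (Nat.pow_le_pow_iff_right (by norm_num)).1 h4
  have h6 : 2 ^ j = 128 * (2 ^ i * 2 ^ i) := by rw [hj]; ring
  have h7 : i < 2 ^ i := Nat.lt_two_pow_self
  by_contra hlt
  have h8 : j * c ≤ (9 * 2 ^ i) * (9 * 2 ^ i) := Nat.mul_le_mul (by omega) (by omega)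
  nlinarith

lemma moduli {n i : ℕ} (hn : 1 ≤ n) (hi : n < 2 ^ 2 ^ i) : ∃ (T : Finset ℕ) (a : ℕ),
    (∀ p ∈ T, p.Prime ∧ 8 ≤ p ∧ p ≤ 2 ^ (2 * i + 7)) ∧ a ≤ 4 * i + 16 ∧
    2 * n ≤ 2 ^ a * ∏ p ∈ T, p * p ∧ 2 ^ a * ∏ p ∈ T, p * p ≤ 4 * n ∧ 2 ^ T.card ≤ n := by
  set Y := 2 ^ (2 * i + 7) with hY
  set S := Nat.primesLE Y \ Finset.range 8 with hS
  have hmem : ∀ p ∈ S, p.Prime ∧ 8 ≤ p ∧ p ≤ Y := by
    intro p hp
    simp only [hS, Finset.mem_sdiff, Nat.mem_primesLE, Finset.mem_range, not_lt] at hp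
    exact ⟨hp.1.2, hp.2, hp.1.1⟩
  have hcard : 2 ^ i ≤ S.card := by
    have := many_primes i
    have h2 := Finset.le_card_sdiff (Finset.range 8) (Nat.primesLE Y)
    rw [Finset.card_range, ← hS] at h2
    rw [← hY] at this
    omega
  have hpow : ∀ T ⊆ S, 2 ^ T.card ≤ ∏ p ∈ T, p * p := fun T hT =>
    Finset.pow_card_le_prod _ _ _ fun p hp => by
      have := (hmem p (hT hp)).2.1
      nlinarith
  obtain ⟨T, hT, hmax⟩ := Finset.exists_max_image
    (S.powerset.filter fun T => ∏ p ∈ T, p * p ≤ n) Finset.card ⟨∅, by simpa using hn⟩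
  simp only [Finset.mem_filter, Finset.mem_powerset] at hT hmax
  set P := ∏ p ∈ T, p * p with hP
  have hP0 : 0 < P := lt_of_lt_of_le (by positivity) (hpow T hT.1)
  have hbig : n < P * (Y * Y) := by
    obtain ⟨p, hp, hpT⟩ : ∃ p ∈ S, p ∉ T := by
      by_contra hc
      push Not at hc
      have e : T = S := Finset.Subset.antisymm hT.1 hc
      have h1 := hpow S subset_rfl
      have h2 : 2 ^ 2 ^ i ≤ 2 ^ S.card := Nat.pow_le_pow_right (by norm_num) hcard
      have h3 := hT.2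
      rw [hP, e] at h3
      omega
    by_contra hc
    have h1 := hmax (insert p T) ⟨Finset.insert_subset hp hT.1, by
      rw [Finset.prod_insert hpT, ← hP]
      have := (hmem p hp).2.2
      have : p * p ≤ Y * Y := Nat.mul_le_mul this this
      nlinarith⟩
    rw [Finset.card_insert_of_notMem hpT] at h1
    omega
  have hex : ∃ a, 2 * n ≤ 2 ^ a * P := ⟨2 * n, by
    have : 2 * n < 2 ^ (2 * n) := Nat.lt_two_pow_self
    nlinarith⟩
  have h4 : 2 ^ Nat.find hex * P ≤ 4 * n := by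
    rcases h : Nat.find hex with _ | a
    · have := hT.2; omega
    · have := Nat.find_min hex (m := a) (by omega)
      rw [pow_succ]; nlinarith
  refine ⟨T, Nat.find hex, fun p hp => hmem p (hT.1 hp), ?_, Nat.find_spec hex, h4,
    (hpow T hT.1).trans hT.2⟩
  refine Nat.find_min' hex ?_
  have : 2 ^ (4 * i + 16) = 4 * (Y * Y) := by rw [hY]; ring
  rw [this]; nlinarith

lemma piK_diagonal {ι : Type} [Fintype ι] [DecidableEq ι] {α : ι → Type}
    [∀ i, DecidableEq (α i)] (d : ∀ i, α i → ℂ) :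
    piK (fun i => diagonal (d i)) = diagonal fun p => ∏ i, d i (p i) := by
  ext p q
  simp only [piK, Matrix.of_apply, diagonal_apply]
  split_ifs with hq
  · simp [hq]
  · obtain ⟨i, hi⟩ := Function.ne_iff.1 hq
    exact Finset.prod_eq_zero (mem_univ i) (if_neg hi)

lemma convN {ι : Type} [Fintype ι] [DecidableEq ι] {m : ι → ℕ} {ω : ι → ℂ}
    (h : ∀ i, IsPrimitiveRoot (ω i) (m i)) (hm : ∀ i, 0 < m i) (W : Finset ℤ) (τ : ℤ → ℂ)
    (x y : ∀ i, Fin (m i)) :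
    (piK (fun i => Fm (m i) (ω i)⁻¹) * diagonal (fun ξ : ∀ i, Fin (m i) => ∑ t ∈ W, τ t *
      ∏ i, ((m i : ℂ)⁻¹ * ω i ^ ((ξ i : ℕ) * t))) * piK (fun i => Fm (m i) (ω i))) x y =
      ∑ t ∈ W, if ∀ i, (m i : ℤ) ∣ t + y i - x i then τ t else 0 := by
  have e : diagonal (fun ξ : ∀ i, Fin (m i) => ∑ t ∈ W, τ t *
      ∏ i, ((m i : ℂ)⁻¹ * ω i ^ ((ξ i : ℕ) * t))) = ∑ t ∈ W, τ t • piK (fun i =>
        diagonal fun ξ : Fin (m i) => (m i : ℂ)⁻¹ * ω i ^ ((ξ : ℕ) * t)) := by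
    ext p q
    simp only [piK_diagonal, Matrix.sum_apply, Matrix.smul_apply, diagonal_apply, smul_eq_mul]
    split_ifs <;> simp
  rw [e, Matrix.mul_sum, Matrix.sum_mul, Matrix.sum_apply]
  refine Finset.sum_congr rfl fun t _ => ?_
  rw [Matrix.mul_smul, Matrix.smul_mul, ← piK_mul, ← piK_mul, Matrix.smul_apply, piK,
    Matrix.of_apply]
  have k := fun i => conv1 (h i) (hm i) {t} (fun _ => 1) (x i) (y i)
  simp only [Finset.sum_singleton, one_mul] at k
  simp only [k, smul_eq_mul]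
  split_ifs with hd
  · simp [hd]
  · obtain ⟨i, hi⟩ := not_forall.1 hd
    rw [Finset.prod_eq_zero (mem_univ i) (if_neg hi), mul_zero]

lemma dft_cost {ι : Type} [Fintype ι] [DecidableEq ι] {m : ι → ℕ} (hm : ∀ i, 0 < m i)
    (hco : Pairwise fun i j => Nat.Coprime (m i) (m j)) {n : ℕ} (hn : 2 * n ≤ ∏ i, m i) {c : ℝ}
    (hc : ∀ ω : ι → ℂ, (∀ i, IsPrimitiveRoot (ω i) (m i)) → Cost (piK fun i => Fm (m i) (ω i)) c)
    {η : ℂ} (h0 : η ≠ 0) : Cost (Fm n (η ^ 2)) (n + (c + ∏ i, (m i : ℝ) + c) + n) := by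
  let ω : ι → ℂ := fun i => Complex.exp (2 * Real.pi * Complex.I / m i)
  have h : ∀ i, IsPrimitiveRoot (ω i) (m i) := fun i => Complex.isPrimitiveRoot_exp _ (hm i).ne'
  let φ : Fin n → ∀ i, Fin (m i) := fun j i => ⟨j % m i, Nat.mod_lt _ (hm i)⟩
  have hφ : ∀ (j : Fin n) i, (m i : ℤ) ∣ (j : ℤ) - (φ j i : ℕ) := by
    intro j i
    simp only [φ]
    push_cast
    exact Int.dvd_self_sub_emod
  have hz : ∀ z : ℤ, (∀ i, (m i : ℤ) ∣ z) → |z| < 2 * n → z = 0 := by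
    intro z hd hz
    have h1 : (∏ i, (m i : ℤ)) ∣ z := Fintype.prod_dvd_of_coprime
      (fun i j hij => Nat.isCoprime_iff_coprime.2 (hco hij)) hd
    refine Int.eq_zero_of_abs_lt_dvd h1 (hz.trans_le ?_)
    exact_mod_cast hn
  have c1 : ∀ {α : Type} [Fintype α] [DecidableEq α] (d : α → ℂ),
      Cost (diagonal d) (Fintype.card α) := fun d =>
    Cost.monomial id d (fun a b => by simp [Matrix.diagonal_apply, eq_comm])
  have c2 := ((hc _ fun i => (h i).inv).mul (c1 (fun ξ : ∀ i, Fin (m i) =>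
    ∑ t ∈ Finset.Ioo (-(n : ℤ)) n, η ^ (-t ^ 2) *
      ∏ i, ((m i : ℂ)⁻¹ * ω i ^ ((ξ i : ℕ) * t))))).mul (hc _ h)
  have c3 : Cost (Matrix.of fun j k : Fin n => η ^ (-((j : ℤ) - k) ^ 2))
      (c + ∏ i, (m i : ℝ) + c) := by
    refine (c2.sub φ φ ?_ ?_).mono (le_of_eq (by simp))
    · intro j k he
      have := hz ((j : ℤ) - k) (fun i => by
        have h1 := hφ j i
        rw [he] at h1
        exact (dvd_sub h1 (hφ k i)).trans (dvd_of_eq (by ring))) (by rw [abs_lt]; omega)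
      ext; omega
    · intro j k
      rw [convN h hm, Finset.sum_eq_single ((j : ℤ) - k)]
      · rw [if_pos, Matrix.of_apply]
        intro i
        exact (dvd_sub (hφ j i) (hφ k i)).trans (dvd_of_eq (by ring))
      · intro t ht hne
        rw [if_neg]
        intro hd
        simp only [Finset.mem_Ioo] at ht
        have := hz (t - ((j : ℤ) - k)) (fun i =>
          (dvd_sub (hd i) (dvd_sub (hφ j i) (hφ k i))).trans (dvd_of_eq (by ring)))
          (by rw [abs_lt]; omega)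
        omega
      · intro hn
        exact absurd (Finset.mem_Ioo.2 ⟨by omega, by omega⟩) hn
  have c4 := ((c1 fun j : Fin n => η ^ ((j : ℕ) ^ 2)).mul c3).mul
    (c1 fun j : Fin n => η ^ ((j : ℕ) ^ 2))
  refine (c4.sub id id Function.injective_id fun j k => ?_).mono (le_of_eq (by simp))
  simp only [id, Matrix.mul_diagonal, Matrix.diagonal_mul, Fm, Matrix.of_apply]
  exact chirp h0 j k

theorem dep_cost' : ∃ γ C : ℝ, 0 < γ ∧ γ < 1 - 2 / 10 ^ 13 ∧ 0 ≤ C ∧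
    ∀ (ι : Type) [Fintype ι] [DecidableEq ι] (r : ℕ) (α : ι → Type) [∀ i, Fintype (α i)]
      [∀ i, DecidableEq (α i)] (M : ∀ i, Matrix (α i) (α i) ℂ), (∀ i, Dep r (M i)) →
      Cost (piK M) (C * (r + 1) * (∏ i, (Fintype.card (α i) : ℝ)) *
        ((Fintype.card ι : ℝ) + 1) ^ γ) := by
  obtain ⟨γ, C, g0, g1, hC, h⟩ := dep_cost
  refine ⟨γ, C, g0, g1, hC, fun ι _ _ r α _ _ M hM => ?_⟩
  let e := (Fintype.equivFin ι).symm
  have := h _ r (fun i => α (e i)) (fun i => M (e i)) (fun i => hM _)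
  refine (this.sub (fun p i => p (e i)) (fun p i => p (e i)) ?_ ?_).mono (le_of_eq ?_)
  · intro p q he
    funext i
    obtain ⟨j, rfl⟩ := e.surjective i
    exact congrFun he j
  · intro p q
    exact (e.prod_comp fun i => M i (p i) (q i)).symm
  · rw [e.prod_comp fun i => (Fintype.card (α i) : ℝ)]

theorem dft_fast : ∃ γ C : ℝ, 0 < γ ∧ γ < 1 - 2 / 10 ^ 13 ∧ 0 ≤ C ∧ ∀ n i : ℕ, 2 ≤ n → n < 2 ^ 2 ^ i →
    ∀ η : ℂ, η ≠ 0 → Cost (Fm n (η ^ 2)) (C * n * (i + 1) * Real.logb 2 n ^ γ) := by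
  obtain ⟨γ, C, g0, g1, hC, h⟩ := dep_cost'
  refine ⟨γ, 6 + 24 * C * 40000, g0, g1, by positivity, fun n i hn hi η h0 => ?_⟩
  obtain ⟨T, a, hT, ha, h1, h2, h3⟩ := moduli (by omega) hi
  let m : Option T → ℕ := fun o => o.elim (2 ^ a) fun p => p * p
  have hm : ∀ o, 0 < m o := by
    rintro (_ | p)
    · exact Nat.two_pow_pos a
    · exact Nat.mul_pos (hT _ p.2).1.pos (hT _ p.2).1.pos
  have hP : ∏ o, m o = 2 ^ a * ∏ p ∈ T, p * p := by
    rw [Fintype.prod_option, ← Finset.prod_coe_sort T]; rfl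
  have h2p : ∀ p : T, Nat.Coprime (2 ^ a) (p * p) := fun p => by
    have := (Nat.coprime_primes Nat.prime_two (hT _ p.2).1).2 (by have := (hT _ p.2).2.1; omega)
    exact Nat.Coprime.pow_left _ (Nat.Coprime.mul_right this this)
  have hco : Pairwise fun i j => Nat.Coprime (m i) (m j) := by
    rintro (_ | p) (_ | q) hne
    · exact absurd rfl hne
    · exact h2p q
    · exact (h2p p).symm
    · have := (Nat.coprime_primes (hT _ p.2).1 (hT _ q.2).1).2
        (fun k => hne (congrArg some (Subtype.ext k)))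
      exact Nat.Coprime.mul_left (this.mul_right this) (this.mul_right this)
  have hd : ∀ ω : Option T → ℂ, (∀ o, IsPrimitiveRoot (ω o) (m o)) →
      ∀ o, Dep (3072 * (2 * i + 10)) (Fm (m o) (ω o)) := by
    rintro ω hω (_ | p)
    · exact (fft a _ (hω none).pow_eq_one).le (by omega)
    · obtain ⟨k1, k2, k3⟩ := hT _ p.2
      have k4 : 2 * (p : ℕ) ≤ 2 ^ Nat.clog 2 (2 * p) := Nat.le_pow_clog (by norm_num) _
      have k5 := Nat.pow_pred_clog_lt_self (b := 2) (by norm_num) (x := 2 * p) (by omega)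
      have k6 : Nat.clog 2 (2 * p) ≤ 2 * i + 8 := by
        rw [Nat.clog_le_iff_le_pow (by norm_num), pow_succ]; omega
      refine (dep_sq (k1.odd_of_ne_two (by omega)) k2 k4 ?_ (hω (some p))).le (by omega)
      rcases hk : Nat.clog 2 (2 * p) with _ | k
      · omega
      · rw [hk, Nat.pred_succ] at k5
        rw [pow_succ]; omega
  refine (dft_cost hm hco (hP ▸ h1) (fun ω hω => h _ _ _ _ (hd ω hω)) h0).mono ?_
  simp only [Fintype.card_fin, Fintype.card_option, Fintype.card_coe]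
  have k1 : ∏ o, (m o : ℝ) ≤ 4 * n := by
    rw [← Nat.cast_prod, hP]; exact_mod_cast h2
  have k0 : 0 ≤ ∏ o, (m o : ℝ) := by positivity
  set L := Real.logb 2 n with hL
  have hn' : (2 : ℝ) ≤ n := by exact_mod_cast hn
  have hL1 : 1 ≤ L := by
    rw [hL, Real.le_logb_iff_rpow_le (by norm_num) (by linarith)]; simpa using hn'
  have k2 : (T.card : ℝ) ≤ L := by
    rw [hL, Real.le_logb_iff_rpow_le (by norm_num) (by linarith), Real.rpow_natCast]
    exact_mod_cast h3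
  have k3 : (((T.card + 1 : ℕ) : ℝ) + 1) ^ γ ≤ 3 * L ^ γ := by
    calc _ ≤ (3 * L) ^ γ := by gcongr; push_cast; linarith
      _ = 3 ^ γ * L ^ γ := Real.mul_rpow (by norm_num) (by linarith)
      _ ≤ 3 * L ^ γ := by
        gcongr
        simpa using Real.rpow_le_rpow_of_exponent_le (x := 3) (by norm_num) (by linarith : γ ≤ 1)
  have k4 : 1 ≤ L ^ γ := Real.one_le_rpow hL1 g0.le
  have k5 : ((3072 * (2 * i + 10) : ℕ) : ℝ) + 1 ≤ 40000 * (i + 1) := by
    have : (0 : ℝ) ≤ i := by positivity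
    push_cast; linarith
  have k6 : C * (((3072 * (2 * i + 10) : ℕ) : ℝ) + 1) * (∏ o, (m o : ℝ)) *
      (((T.card + 1 : ℕ) : ℝ) + 1) ^ γ ≤ C * (40000 * (i + 1)) * (4 * n) * (3 * L ^ γ) := by
    gcongr
  have k7 : (n : ℝ) ≤ n * (i + 1) * L ^ γ := by
    have : (1 : ℝ) ≤ (i + 1) * L ^ γ := by
      have : (0 : ℝ) ≤ i := by positivity
      nlinarith
    nlinarith
  nlinarith

theorem main' : ∃ C : ℝ, ∀ n : ℕ, 2 ≤ n → ∃ g : List (Val n), Circuit g ∧
    (∀ j, Avail g (dft n j)) ∧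
    (g.length : ℝ) ≤ C * n * Real.logb 2 n ^ (1 - 2 / 10 ^ 13 : ℝ) := by
  obtain ⟨γ, C, g0, g1, hC, h⟩ := dft_fast
  set δ := 1 - 2 / 10 ^ 13 - γ with hδ
  have d0 : 0 < δ := by linarith
  refine ⟨C * (2 * (2 + 2 / δ)), fun n hn => ?_⟩
  have hlog : 1 ≤ Nat.log 2 n := Nat.log_pos (by norm_num) hn
  set i := Nat.log 2 (Nat.log 2 n) with hi
  have h1 : n < 2 ^ 2 ^ (i + 1) :=
    (Nat.lt_pow_succ_log_self (by norm_num) n).trans_le
      (Nat.pow_le_pow_right (by norm_num) (Nat.lt_pow_succ_log_self (by norm_num) _))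
  obtain ⟨g, k1, k2, -, k4⟩ := h n (i + 1) hn h1 (Complex.exp (Real.pi * Complex.I / n))
    (Complex.exp_ne_zero _) n [] Circuit.nil (fun a x => x a) (fun a => Or.inr (Or.inl ⟨a, rfl⟩))
  refine ⟨g, k1, fun j => ?_, k2.trans ?_⟩
  · convert k4 j using 1
    funext x
    simp only [dft, Fm, Matrix.of_apply, ← Complex.exp_nat_mul]
    refine Finset.sum_congr rfl fun k _ => ?_
    congr 2
    push_cast; ring
  · set L := Real.logb 2 n with hL
    have hn' : (2 : ℝ) ≤ n := by exact_mod_cast hn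
    have hL1 : 1 ≤ L := by
      rw [hL, Real.le_logb_iff_rpow_le (by norm_num) (by linarith)]; simpa using hn'
    have l1 : (2 : ℝ) ^ i ≤ L := by
      have a1 : 2 ^ i ≤ Nat.log 2 n := Nat.pow_log_le_self 2 (by omega)
      have a2 : (Nat.log 2 n : ℝ) ≤ L := by
        rw [hL, Real.le_logb_iff_rpow_le (by norm_num) (by linarith), Real.rpow_natCast]
        exact_mod_cast Nat.pow_log_le_self 2 (by omega : n ≠ 0)
      exact le_trans (by exact_mod_cast a1) a2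
    have l2 : (i : ℝ) * Real.log 2 ≤ L ^ δ / δ := by
      rw [← Real.log_pow]
      exact (Real.log_le_log (by positivity) l1).trans (Real.log_le_rpow_div (by linarith) d0)
    have l3 : 1 ≤ L ^ δ := Real.one_le_rpow hL1 d0.le
    have l4 : (i : ℝ) ≤ 2 / δ * L ^ δ := by
      have := Real.log_two_gt_d9
      have : (0 : ℝ) ≤ i := by positivity
      have e : 2 / δ * L ^ δ = 2 * (L ^ δ / δ) := by ring
      nlinarith
    have l5 : ((i + 1 : ℕ) : ℝ) + 1 ≤ (2 * (2 + 2 / δ)) * L ^ δ := by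
      have : 0 ≤ 2 / δ * L ^ δ := by positivity
      push_cast; nlinarith
    have e : L ^ (1 - 2 / 10 ^ 13 : ℝ) = L ^ δ * L ^ γ := by
      rw [← Real.rpow_add (by linarith)]; congr 1; linarith
    simp only [List.length_nil, Nat.cast_zero, zero_add]
    calc _ ≤ C * n * ((2 * (2 + 2 / δ)) * L ^ δ) * L ^ γ := by gcongr
      _ = _ := by rw [e]; ring

theorem main : ∃ δ : ℝ, 0 < δ ∧ ∃ C : ℝ, ∀ n : ℕ, 2 ≤ n → ∃ g : List (Val n), Circuit g ∧
    (∀ j, Avail g (dft n j)) ∧ (g.length : ℝ) ≤ C * n * Real.logb 2 n ^ (1 - δ) :=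
  ⟨2 / 10 ^ 13, by norm_num, main'⟩

end Vale.Agent.P344
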