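import Vale.Agent.P344.Circ

namespace Vale.Agent.P344

open Matrix Finset

variable {A : Type} [AddCommGroup A] (atom : Set A)

/-- `x` is a sum of `r` atoms. -/
def Len (r : ℕ) (x : A) : Prop :=
  ∃ l : List A, l.length = r ∧ (∀ y ∈ l, y ∈ atom) ∧ l.sum = x

variable {atom}

lemma Len.zero : Len atom 0 0 := ⟨[], rfl, by simp, rfl⟩

lemma Len.of_eq {x y : A} {r : ℕ} (h : Len atom r x) (e : x = y) : Len atom r y := e ▸ h

lemma Len.zero' {x : A} (e : x = 0) : Len atom 0 x := e ▸ Len.zero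

lemma Len.add {x y : A} {r s : ℕ} (h : Len atom r x) (k : Len atom s y) :
    Len atom (r + s) (x + y) := by
  obtain ⟨l, h1, h2, h3⟩ := h
  obtain ⟨m, k1, k2, k3⟩ := k
  refine ⟨l ++ m, by simp [h1, k1], ?_, by simp [h3, k3]⟩
  intro y hy
  rcases List.mem_append.1 hy with h | h
  · exact h2 y h
  · exact k2 y h

lemma Len.single {x : A} (h : x ∈ atom) : Len atom 1 x := ⟨[x], rfl, by simpa, by simp⟩

lemma Len.sum {ι : Type} (s : Finset ι) (f : ι → A) (h : ∀ i ∈ s, f i ∈ atom) :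
    Len atom s.card (∑ i ∈ s, f i) := by
  classical
  induction s using Finset.induction_on with
  | empty => simpa using Len.zero
  | insert i s hi ih =>
    rw [Finset.sum_insert hi, Finset.card_insert_of_notMem hi, add_comm s.card]
    exact (Len.single (h i (Finset.mem_insert_self _ _))).add
      (ih fun j hj => h j (Finset.mem_insert_of_mem hj))

variable (atom)

structure Rep {G : Type} [Fintype G] [DecidableEq G] (Ψ : A → Matrix G G ℂ) (a : ℝ) :
    Prop where
  zero : Ψ 0 = 1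
  add : ∀ x y, Ψ (x + y) = Ψ x * Ψ y
  cost : ∀ x ∈ atom, Cost (Ψ x) a

variable {atom}

lemma Rep.len {G : Type} [Fintype G] [DecidableEq G] {Ψ : A → Matrix G G ℂ} {a : ℝ}
    (h : Rep atom Ψ a) {r : ℕ} {x : A} (hx : Len atom r x) : Cost (Ψ x) (r * a) := by
  obtain ⟨l, rfl, h2, rfl⟩ := hx
  induction l with
  | nil => simpa [h.zero] using Cost.one
  | cons y l ih =>
    rw [List.sum_cons, h.add]
    refine ((h.cost y (h2 y List.mem_cons_self)).mul
      (ih fun z hz => h2 z (List.mem_cons_of_mem _ hz))).mono (le_of_eq ?_)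
    simp; ring

/-- The block matrix realised by a protocol. -/
def blk {W G : Type} (Ψ : A → Matrix G G ℂ) (l l' : W → A) (M : Matrix W W ℂ) :
    Matrix (W × G) (W × G) ℂ :=
  fun p q => M p.1 q.1 * Ψ (l' p.1 - l q.1) p.2 q.2

variable (atom)

def Prot {W : Type} [Fintype W] (l l' : W → A) (M : Matrix W W ℂ) (r : ℕ) : Prop :=
  ∃ C : ℝ, ∀ (G : Type) [Fintype G] [DecidableEq G] (Ψ : A → Matrix G G ℂ) (a : ℝ),
    Rep atom Ψ a → Cost (blk Ψ l l' M) (r * a + C * Fintype.card G)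

variable {atom} {W : Type} [Fintype W] [DecidableEq W]

lemma Prot.move {l l' : W → A} (ρ : W → ℕ) (h : ∀ w, Len atom (ρ w) (l' w - l w)) :
    Prot atom l l' 1 (∑ w, ρ w) := by
  refine ⟨0, fun G _ _ Ψ a hR => ?_⟩
  have := Cost.bd (M := fun w => Ψ (l' w - l w)) (fun w => hR.len (h w))
  refine (this.sub id id Function.injective_id ?_).mono (le_of_eq ?_)
  · rintro ⟨w, x⟩ ⟨w', y⟩
    by_cases hw : w = w'
    · subst hw; simp [blk, bd]
    · simp [blk, bd, hw]
  · simp [Finset.sum_mul]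

lemma Prot.mix {l : W → A} {M : Matrix W W ℂ} (h : ∀ w w', M w w' ≠ 0 → l w = l w') :
    Prot atom l l M 0 := by
  refine ⟨2 * Fintype.card W * Fintype.card W, fun G _ _ Ψ a hR => ?_⟩
  have := (Cost.trivial M).bdc (Γ := G)
  refine (this.sub Prod.swap Prod.swap Prod.swap_injective ?_).mono (le_of_eq ?_)
  · rintro ⟨w, x⟩ ⟨w', y⟩
    by_cases hM : M w w' = 0
    · simp [blk, bd, hM]
    · simp [blk, bd, h w w' hM, hR.zero, Matrix.one_apply]
  · simp; ring

omit [DecidableEq W] in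
lemma Prot.comp {l l' l'' : W → A} {M N : Matrix W W ℂ} {r s : ℕ} (h : Prot atom l l' M r)
    (k : Prot atom l' l'' N s) : Prot atom l l'' (N * M) (r + s) := by
  obtain ⟨C, h⟩ := h
  obtain ⟨D, k⟩ := k
  refine ⟨C + D, fun G _ _ Ψ a hR => ?_⟩
  refine (((k G Ψ a hR).mul (h G Ψ a hR)).sub id id Function.injective_id ?_).mono
    (le_of_eq ?_)
  · rintro ⟨w, x⟩ ⟨w', y⟩
    simp only [blk, id, Matrix.mul_apply, Fintype.sum_prod_type, Finset.sum_mul]
    refine Finset.sum_congr rfl fun v _ => ?_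
    have : l'' w - l w' = (l'' w - l' v) + (l' v - l w') := by abel
    rw [this, hR.add, Matrix.mul_apply, Finset.mul_sum]
    refine Finset.sum_congr rfl fun z _ => ?_
    ring
  · push_cast; ring

lemma Prot.step {l l' l'' : W → A} {M N : Matrix W W ℂ} {r : ℕ} (h : Prot atom l l' M r)
    (ρ : W → ℕ) (hρ : ∀ w, Len atom (ρ w) (l'' w - l' w))
    (hN : ∀ w w', N w w' ≠ 0 → l'' w = l'' w') :
    Prot atom l l'' (N * M) (r + ∑ w, ρ w) := by
  have := (h.comp (Prot.move ρ hρ)).comp (Prot.mix hN)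
  simpa using this

omit [DecidableEq W] in
lemma Prot.congr {l l' : W → A} {M M' : Matrix W W ℂ} {r r' : ℕ} (h : Prot atom l l' M r)
    (e : M = M') (e' : r = r') : Prot atom l l' M' r' := e ▸ e' ▸ h

omit [DecidableEq W] in
lemma Prot.equiv {W' : Type} [Fintype W'] {l l' : W → A} {M : Matrix W W ℂ} {r : ℕ}
    (h : Prot atom l l' M r) (e : W' ≃ W) {m m' : W' → A} {M' : Matrix W' W' ℂ}
    (hm : ∀ w, m w = l (e w)) (hm' : ∀ w, m' w = l' (e w))
    (hM : ∀ w w', M' w w' = M (e w) (e w')) : Prot atom m m' M' r := by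
  obtain ⟨C, h⟩ := h
  refine ⟨C, fun G _ _ Ψ a hR => ?_⟩
  refine (h G Ψ a hR).sub (Prod.map e id) (Prod.map e id)
    (e.injective.prodMap Function.injective_id) ?_
  rintro ⟨w, x⟩ ⟨w', y⟩
  simp [blk, hm, hm', hM]

omit [DecidableEq W] in
lemma Prot.sumId {Z : Type} [Fintype Z] [DecidableEq Z] {l l' : W → A} {M : Matrix W W ℂ}
    {r : ℕ} (h : Prot atom l l' M r) (m : Z → A) :
    Prot atom (Sum.elim l m) (Sum.elim l' m) (fromBlocks M 0 0 1) r := by
  obtain ⟨C, h⟩ := h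
  refine ⟨C, fun G _ _ Ψ a hR => ?_⟩
  have := (h G Ψ a hR).blocks (Cost.one (α := Z × G))
  refine (this.sub (Equiv.sumProdDistrib W Z G) (Equiv.sumProdDistrib W Z G)
    (Equiv.injective _) ?_).mono (by simp)
  rintro ⟨w | w, x⟩ ⟨w' | w', y⟩
  · simp [blk]
  · simp [blk]
  · simp [blk]
  · by_cases hw : w = w'
    · subst hw; simp [blk, hR.zero, Matrix.one_apply]
    · simp [blk, hw, Matrix.one_apply]

omit [DecidableEq W] in
lemma Prot.prod {Γ : Type} [Fintype Γ] [DecidableEq Γ] {l l' : Γ → W → A}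
    {M : Γ → Matrix W W ℂ} {r : ℕ} (h : ∀ i, Prot atom (l i) (l' i) (M i) r) :
    Prot atom (fun p : Γ × W => l p.1 p.2) (fun p => l' p.1 p.2) (bd M)
      (Fintype.card Γ * r) := by
  choose C h using h
  refine ⟨∑ i, C i, fun G _ _ Ψ a hR => ?_⟩
  have := Cost.bd (fun i => h i G Ψ a hR)
  refine (this.sub (Equiv.prodAssoc Γ W G) (Equiv.prodAssoc Γ W G)
    (Equiv.injective _) ?_).mono (le_of_eq ?_)
  · rintro ⟨⟨i, w⟩, x⟩ ⟨⟨j, w'⟩, y⟩
    by_cases hw : i = j
    · subst hw; simp [blk, bd]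
    · simp [blk, bd, hw]
  · simp [Finset.sum_add_distrib, Finset.sum_mul]; ring

variable (atom)

/-- A protocol on data wires `W` using auxiliary wires `Z` that travel from `0` to `top`
and keep their contents. -/
def AP (top : A) (Z : Type) [Fintype Z] [DecidableEq Z] (l l' : W → A) (M : Matrix W W ℂ)
    (r : ℕ) : Prop :=
  Prot atom (Sum.elim l (fun _ : Z => 0)) (Sum.elim l' (fun _ => top)) (fromBlocks M 0 0 1) r

variable {atom} {top : A}

omit [DecidableEq W] in
lemma AP.comp {Z Z' : Type} [Fintype Z] [DecidableEq Z] [Fintype Z'] [DecidableEq Z']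
    {l l' l'' : W → A} {M N : Matrix W W ℂ} {r s : ℕ} (h : AP atom top Z l l' M r)
    (k : AP atom top Z' l' l'' N s) : AP atom top (Z ⊕ Z') l l'' (N * M) (r + s) := by
  have h1 : Prot atom (Sum.elim l (Sum.elim (fun _ : Z => 0) (fun _ : Z' => 0)))
      (Sum.elim l' (Sum.elim (fun _ : Z => top) (fun _ : Z' => 0))) (fromBlocks M 0 0 1) r := by
    refine (Prot.sumId h (fun _ : Z' => 0)).equiv (Equiv.sumAssoc W Z Z').symm ?_ ?_ ?_
    · rintro (w | w | w) <;> simp
    · rintro (w | w | w) <;> simp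
    · rintro (w | w | w) (v | v | v) <;> simp [Matrix.one_apply]
  have h2 : Prot atom (Sum.elim l' (Sum.elim (fun _ : Z => top) (fun _ : Z' => 0)))
      (Sum.elim l'' (Sum.elim (fun _ : Z => top) (fun _ : Z' => top))) (fromBlocks N 0 0 1) s := by
    refine (Prot.sumId k (fun _ : Z => top)).equiv
      ((Equiv.sumCongr (Equiv.refl W) (Equiv.sumComm Z Z')).trans
        (Equiv.sumAssoc W Z' Z).symm) ?_ ?_ ?_
    · rintro (w | w | w) <;> simp
    · rintro (w | w | w) <;> simp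
    · rintro (w | w | w) (v | v | v) <;> simp [Matrix.one_apply]
  have := (h1.comp h2).congr (M' := fromBlocks (N * M) 0 0 1)
    (by simp [Matrix.fromBlocks_multiply]) rfl
  unfold AP
  refine this.equiv (Equiv.refl _) ?_ ?_ (fun _ _ => rfl)
  · rintro (w | w | w) <;> simp
  · rintro (w | w | w) <;> simp

lemma AP.move {Z : Type} [Fintype Z] [DecidableEq Z]
    {l l' l'' : W → A} {M : Matrix W W ℂ} {r : ℕ} (h : AP atom top Z l l' M r)
    (ρ : ℕ) (hρ : ∀ w, Len atom ρ (l'' w - l' w)) :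
    AP atom top Z l l'' M (r + Fintype.card W * ρ) := by
  have := Prot.comp h (Prot.move (l' := Sum.elim l'' (fun _ : Z => top))
    (Sum.elim (fun _ => ρ) (fun _ => 0)) (by
      rintro (w | w)
      · exact hρ w
      · exact Len.zero' (by simp)))
  exact this.congr (by simp) (by simp)

omit [DecidableEq W] in
lemma AP.prod {Γ Z W' : Type} [Fintype Γ] [DecidableEq Γ] [Fintype Z] [DecidableEq Z]
    [Fintype W'] {l l' : Γ → W → A} {M : Γ → Matrix W W ℂ} {r : ℕ}
    (h : ∀ i, AP atom top Z (l i) (l' i) (M i) r) (e : W' ≃ Γ × W) {m m' : W' → A}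
    {M' : Matrix W' W' ℂ} (hm : ∀ w, m w = l (e w).1 (e w).2)
    (hm' : ∀ w, m' w = l' (e w).1 (e w).2) (hM : ∀ w w', M' w w' = bd M (e w) (e w')) :
    AP atom top (Γ × Z) m m' M' (Fintype.card Γ * r) := by
  have := Prot.prod h
  refine this.equiv ((Equiv.sumCongr e (Equiv.refl _)).trans
    (Equiv.prodSumDistrib Γ W Z).symm) ?_ ?_ ?_
  · rintro (w | ⟨i, z⟩)
    · rw [Sum.elim_inl, hm]; rfl
    · rfl
  · rintro (w | ⟨i, z⟩)
    · rw [Sum.elim_inl, hm']; rfl
    · rfl
  · rintro (w | ⟨i, z⟩) (v | ⟨j, y⟩)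
    · rw [fromBlocks_apply₁₁, hM]; rfl
    · simp [bd, Equiv.prodSumDistrib]
    · simp [bd, Equiv.prodSumDistrib]
    · by_cases hij : i = j
      · subst hij; simp [bd, Equiv.prodSumDistrib, Matrix.one_apply]
      · simp [bd, Equiv.prodSumDistrib, Matrix.one_apply, hij]

end Vale.Agent.P344
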