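import Vale.Agent.P344.Prot

namespace Vale.Agent.P344

open Matrix Finset

variable {A : Type} [AddCommGroup A] {atom : Set A}
variable {S J : Type} [Fintype S] [DecidableEq S] [Fintype J] [DecidableEq J]

/-- targets read the auxiliary wires -/
def up {Z : Type} [DecidableEq Z] (M : Matrix S Z ℂ) : Matrix ((S ⊕ S) ⊕ Z) ((S ⊕ S) ⊕ Z) ℂ :=
  fromBlocks 1 (fromRows 0 M) 0 1

/-- auxiliary wires read the sources -/
def dn {Z : Type} [DecidableEq Z] (M : Matrix Z S ℂ) : Matrix ((S ⊕ S) ⊕ Z) ((S ⊕ S) ⊕ Z) ℂ :=
  fromBlocks 1 0 (fromCols M 0) 1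

omit [Fintype S] in
lemma up_local {Z : Type} [DecidableEq Z] {M : Matrix S Z ℂ} {l : (S ⊕ S) ⊕ Z → A}
    (h : ∀ s z, M s z ≠ 0 → l (Sum.inl (Sum.inr s)) = l (Sum.inr z)) :
    ∀ w w', up M w w' ≠ 0 → l w = l w' := by
  rintro ((w | w) | w) ((v | v) | v) hw <;>
    first
    | (simp [up] at hw; done)
    | exact h _ _ (by simpa [up] using hw)
    | (have : w = v := by
        by_contra hne
        simp [up, Matrix.one_apply, hne] at hw
       rw [this])

omit [Fintype S] in
lemma dn_local {Z : Type} [DecidableEq Z] {M : Matrix Z S ℂ} {l : (S ⊕ S) ⊕ Z → A}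
    (h : ∀ z s, M z s ≠ 0 → l (Sum.inr z) = l (Sum.inl (Sum.inl s))) :
    ∀ w w', dn M w w' ≠ 0 → l w = l w' := by
  rintro ((w | w) | w) ((v | v) | v) hw <;>
    first
    | (simp [dn] at hw; done)
    | exact h _ _ (by simpa [dn] using hw)
    | (have : w = v := by
        by_contra hne
        simp [dn, Matrix.one_apply, hne] at hw
       rw [this])

lemma fwd_prod {Z : Type} [Fintype Z] [DecidableEq Z] (Ra Rz : Matrix S Z ℂ)
    (Wa Wz : Matrix Z S ℂ) :
    dn (-(Wa + Wz)) * (up Ra * (up Rz * (dn Wz * (dn Wa * (up (-(Ra + Rz)) * 1))))) =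
      fromBlocks (fromBlocks 1 0 ((Ra + Rz) * (Wa + Wz)) 1) 0 0 1 := by
  simp only [up, dn, Matrix.fromBlocks_multiply, Matrix.mul_one, Matrix.one_mul, Matrix.mul_zero,
    Matrix.zero_mul, add_zero, zero_add, Matrix.mul_add, Matrix.add_mul,
    fromRows_mul_fromCols, fromCols_mul_fromRows, fromCols_mul_fromBlocks, neg_zero]
  ext ((w | w) | w) ((v | v) | v) <;>
    simp [Matrix.one_apply, Matrix.mul_add, Matrix.add_mul] <;> ring

lemma bwd_prod {Z : Type} [Fintype Z] [DecidableEq Z] (Ra Rz : Matrix S Z ℂ)
    (Wa Wz : Matrix Z S ℂ) :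
    up (Ra + Rz) * (dn (-Wa) * (dn (-Wz) * (up (-Rz) * (up (-Ra) * (dn (Wa + Wz) * 1))))) =
      fromBlocks (fromBlocks 1 0 (-((Ra + Rz) * (Wa + Wz))) 1) 0 0 1 := by
  simp only [up, dn, Matrix.fromBlocks_multiply, Matrix.mul_one, Matrix.one_mul, Matrix.mul_zero,
    Matrix.zero_mul, add_zero, zero_add, Matrix.mul_add, Matrix.add_mul,
    fromRows_mul_fromCols, fromCols_mul_fromRows, fromCols_mul_fromBlocks, neg_zero]
  ext ((w | w) | w) ((v | v) | v) <;>
    simp [Matrix.one_apply, Matrix.mul_add, Matrix.add_mul] <;> ring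

/-- The data of the scalar network. -/
structure Net (S J : Type) [Fintype S] [DecidableEq S] [Fintype J] where
  compat : S → S → Prop
  symm : ∀ s t, compat s t → compat t s
  side : Matrix S S ℂ
  P : Matrix S J ℂ
  Q : Matrix J S ℂ
  sum : side + P * Q = 1
  hside : ∀ s t, side s t ≠ 0 → compat s t

namespace Net

variable (N : Net S J)

def Ra : Matrix S (S × S ⊕ J) ℂ :=
  fromCols (Matrix.of fun s p => if s = p.1 then N.side p.1 p.2 else 0) 0
def Rz : Matrix S (S × S ⊕ J) ℂ := fromCols 0 N.P
def Wa : Matrix (S × S ⊕ J) S ℂ :=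
  fromRows (Matrix.of fun p t => if t = p.2 then 1 else 0) 0
def Wz : Matrix (S × S ⊕ J) S ℂ := fromRows 0 N.Q

omit [DecidableEq J] in
lemma RW : (N.Ra + N.Rz) * (Wa + N.Wz) = 1 := by
  rw [← N.sum]
  ext s t
  simp [Ra, Rz, Wa, Wz, Matrix.mul_apply, Fintype.sum_prod_type]

end Net

/-- Lengths needed for one stage. -/
structure Geo (atom : Set A) (N : Net S J) (top β one : A) (p : S → A) (h b b' : ℕ) : Prop where
  hp : ∀ s, Len atom 1 (p s)
  h1 : ∀ s, Len atom (h + 1) (one - p s)
  h2 : ∀ s t, N.compat s t → Len atom h (one - p s - p t)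
  ho : Len atom (h + 2) one
  hn : Len atom (h + 2) (-one)
  hb : Len atom b β
  hb' : Len atom b' (top - (β + one))

/-- The number of unit moves in one stage. -/
def stageCost (S J : Type) [Fintype S] [Fintype J] (h b b' : ℕ) : ℕ :=
  2 * Fintype.card S * (h + 1) + Fintype.card S * Fintype.card S * (b + (h + 2) + b') +
    Fintype.card J * (b + 3 * (h + 2) + b')

lemma stage_fwd {N : Net S J} {top β one : A} {p : S → A} {h b b' : ℕ}
    (G : Geo atom N top β one p h b b') :
    AP atom top (S × S ⊕ J) (Sum.elim (fun s => β + p s) (fun _ => β))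
      (Sum.elim (fun _ => β + one) (fun s => β + one - p s)) (fromBlocks 1 0 1 1)
      (stageCost S J h b b') := by
  classical
  let L (x y : S → A) (a : S × S → A) (z : A) : (S ⊕ S) ⊕ (S × S ⊕ J) → A :=
    Sum.elim (Sum.elim x y) (Sum.elim a fun _ => z)
  let R (x y : ℕ) (a : S × S → ℕ) (z : ℕ) : (S ⊕ S) ⊕ (S × S ⊕ J) → ℕ :=
    Sum.elim (Sum.elim (fun _ => x) (fun _ => y)) (Sum.elim a fun _ => z)
  have s0 : Prot atom (L (fun s => β + p s) (fun _ => β) (fun _ => 0) 0)
      (L (fun s => β + p s) (fun _ => β) (fun _ => 0) 0) 1 0 :=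
    Prot.mix (fun w w' hw => by
      have : w = w' := by by_contra hne; simp [Matrix.one_apply, hne] at hw
      rw [this])
  have s1 := s0.step (l'' := L (fun s => β + p s) (fun _ => β) (fun _ => β) β)
    (N := up (-(N.Ra + N.Rz))) (R 0 0 (fun _ => b) b)
    (by rintro ((w | w) | (w | w))
        · exact Len.zero' (by simp [L])
        · exact Len.zero' (by simp [L])
        · exact G.hb.of_eq (by simp [L])
        · exact G.hb.of_eq (by simp [L]))
    (up_local (by rintro s (z | z) _ <;> simp [L]))
  have s2 := s1.step (l'' := L (fun s => β + p s) (fun _ => β) (fun q => β + p q.2) β)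
    (N := dn Net.Wa) (R 0 0 (fun _ => 1) 0)
    (by rintro ((w | w) | (w | w))
        · exact Len.zero' (by simp [L])
        · exact Len.zero' (by simp [L])
        · exact (G.hp w.2).of_eq (by simp [L])
        · exact Len.zero' (by simp [L]))
    (dn_local (by
      rintro (z | z) s hz
      · have : s = z.2 := by by_contra hne; simp [Net.Wa, hne] at hz
        simp [L, this]
      · simp [Net.Wa] at hz))
  have s3 := s2.step (l'' := L (fun _ => β + one) (fun _ => β) (fun q => β + p q.2) (β + one))
    (N := dn N.Wz) (R (h + 1) 0 (fun _ => 0) (h + 2))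
    (by rintro ((w | w) | (w | w))
        · exact (G.h1 w).of_eq (by simp [L])
        · exact Len.zero' (by simp [L])
        · exact Len.zero' (by simp [L])
        · exact G.ho.of_eq (by simp [L]))
    (dn_local (by
      rintro (z | z) s hz
      · simp [Net.Wz] at hz
      · simp [L]))
  have s4 := s3.step (l'' := L (fun _ => β + one) (fun _ => β) (fun q => β + p q.2) β)
    (N := up N.Rz) (R 0 0 (fun _ => 0) (h + 2))
    (by rintro ((w | w) | (w | w))
        · exact Len.zero' (by simp [L])
        · exact Len.zero' (by simp [L])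
        · exact Len.zero' (by simp [L])
        · exact G.hn.of_eq (by simp [L]))
    (up_local (by
      rintro s (z | z) hz
      · simp [Net.Rz] at hz
      · simp [L]))
  have s5 := s4.step (l'' := L (fun _ => β + one) (fun s => β + one - p s)
      (fun q => if N.compat q.1 q.2 then β + one - p q.1 else β + p q.2) β)
    (N := up N.Ra) (R 0 (h + 1) (fun q => if N.compat q.1 q.2 then h else 0) 0)
    (by rintro ((w | w) | (w | w))
        · exact Len.zero' (by simp [L])
        · exact (G.h1 w).of_eq (by simp only [L, Sum.elim_inl, Sum.elim_inr]; abel)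
        · by_cases hc : N.compat w.1 w.2
          · simp only [L, R, Sum.elim_inl, Sum.elim_inr, hc, if_true]
            exact (G.h2 _ _ hc).of_eq (by abel)
          · simp only [L, R, Sum.elim_inl, Sum.elim_inr, hc, if_false]
            exact Len.zero' (by simp)
        · exact Len.zero' (by simp [L]))
    (up_local (by
      rintro s (z | z) hz
      · have h1 : s = z.1 := by by_contra hne; simp [Net.Ra, hne] at hz
        have h2 : N.side z.1 z.2 ≠ 0 := by intro h0; simp [Net.Ra, h0] at hz
        simp [L, h1, N.hside _ _ h2]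
      · simp [Net.Ra] at hz))
  have s6 := s5.step (l'' := L (fun _ => β + one) (fun s => β + one - p s)
      (fun _ => β + one) (β + one))
    (N := dn (-(Net.Wa + N.Wz))) (R 0 0 (fun q => if N.compat q.1 q.2 then 1 else h + 1) (h + 2))
    (by rintro ((w | w) | (w | w))
        · exact Len.zero' (by simp [L])
        · exact Len.zero' (by simp [L])
        · by_cases hc : N.compat w.1 w.2
          · simp only [L, R, Sum.elim_inl, Sum.elim_inr, hc, if_true]
            exact (G.hp w.1).of_eq (by abel)
          · simp only [L, R, Sum.elim_inl, Sum.elim_inr, hc, if_false]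
            exact (G.h1 w.2).of_eq (by abel)
        · exact G.ho.of_eq (by simp [L]))
    (dn_local (by rintro (z | z) s _ <;> simp [L]))
  have s7 := s6.comp (Prot.move (l' := L (fun _ => β + one) (fun s => β + one - p s)
      (fun _ => top) top) (R 0 0 (fun _ => b') b')
    (by rintro ((w | w) | (w | w))
        · exact Len.zero' (by simp [L])
        · exact Len.zero' (by simp [L])
        · exact G.hb'.of_eq (by simp [L])
        · exact G.hb'.of_eq (by simp [L])))
  rw [fwd_prod, N.RW, Matrix.one_mul] at s7
  have e : ∑ q : S × S, (if N.compat q.1 q.2 then h else 0) +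
      ∑ q : S × S, (if N.compat q.1 q.2 then 1 else h + 1) =
      Fintype.card S * Fintype.card S * (h + 1) := by
    rw [← Finset.sum_add_distrib]
    rw [Finset.sum_congr rfl (g := fun _ => h + 1) (fun q _ => by split_ifs <;> simp)]
    simp
  refine (s7.congr rfl (r' := stageCost S J h b b') ?_).equiv (Equiv.refl _) ?_ ?_
    (fun _ _ => rfl)
  · simp only [R, Fintype.sum_sum_type, Sum.elim_inl, Sum.elim_inr, Finset.sum_const,
      Finset.card_univ, smul_eq_mul, Fintype.card_prod, stageCost]
    nlinarith [e]
  · rintro ((w | w) | (w | w)) <;> simp [L]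
  · rintro ((w | w) | (w | w)) <;> simp [L]

lemma stage_bwd {N : Net S J} {top β one : A} {p : S → A} {h b b' : ℕ}
    (G : Geo atom N top β one p h b b') :
    AP atom top (S × S ⊕ J) (Sum.elim (fun _ => β) (fun s => β + p s))
      (Sum.elim (fun s => β + one - p s) (fun _ => β + one)) (fromBlocks 1 0 (-1) 1)
      (stageCost S J h b b') := by
  classical
  let L (x y : S → A) (a : S × S → A) (z : A) : (S ⊕ S) ⊕ (S × S ⊕ J) → A :=
    Sum.elim (Sum.elim x y) (Sum.elim a fun _ => z)
  let R (x y : ℕ) (a : S × S → ℕ) (z : ℕ) : (S ⊕ S) ⊕ (S × S ⊕ J) → ℕ :=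
    Sum.elim (Sum.elim (fun _ => x) (fun _ => y)) (Sum.elim a fun _ => z)
  have s0 : Prot atom (L (fun _ => β) (fun s => β + p s) (fun _ => 0) 0)
      (L (fun _ => β) (fun s => β + p s) (fun _ => 0) 0) 1 0 :=
    Prot.mix (fun w w' hw => by
      have : w = w' := by by_contra hne; simp [Matrix.one_apply, hne] at hw
      rw [this])
  have s1 := s0.step (l'' := L (fun _ => β) (fun s => β + p s) (fun _ => β) β)
    (N := dn (Net.Wa + N.Wz)) (R 0 0 (fun _ => b) b)
    (by rintro ((w | w) | (w | w))
        · exact Len.zero' (by simp [L])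
        · exact Len.zero' (by simp [L])
        · exact G.hb.of_eq (by simp [L])
        · exact G.hb.of_eq (by simp [L]))
    (dn_local (by rintro (z | z) s _ <;> simp [L]))
  have s2 := s1.step (l'' := L (fun _ => β) (fun s => β + p s)
      (fun q => if N.compat q.1 q.2 then β + p q.1 else β) β)
    (N := up (-N.Ra)) (R 0 0 (fun q => if N.compat q.1 q.2 then 1 else 0) 0)
    (by rintro ((w | w) | (w | w))
        · exact Len.zero' (by simp [L])
        · exact Len.zero' (by simp [L])
        · by_cases hc : N.compat w.1 w.2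
          · simp only [L, R, Sum.elim_inl, Sum.elim_inr, hc, if_true]
            exact (G.hp w.1).of_eq (by abel)
          · simp only [L, R, Sum.elim_inl, Sum.elim_inr, hc, if_false]
            exact Len.zero' (by simp)
        · exact Len.zero' (by simp [L]))
    (up_local (by
      rintro s (z | z) hz
      · have h1 : s = z.1 := by by_contra hne; simp [Net.Ra, hne] at hz
        have h2 : N.side z.1 z.2 ≠ 0 := by intro h0; simp [Net.Ra, h0] at hz
        simp [L, h1, N.hside _ _ h2]
      · simp [Net.Ra] at hz))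
  have s3 := s2.step (l'' := L (fun _ => β) (fun _ => β + one)
      (fun q => if N.compat q.1 q.2 then β + p q.1 else β) (β + one))
    (N := up (-N.Rz)) (R 0 (h + 1) (fun _ => 0) (h + 2))
    (by rintro ((w | w) | (w | w))
        · exact Len.zero' (by simp [L])
        · exact (G.h1 w).of_eq (by simp [L])
        · exact Len.zero' (by simp [L])
        · exact G.ho.of_eq (by simp [L]))
    (up_local (by
      rintro s (z | z) hz
      · simp [Net.Rz] at hz
      · simp [L]))
  have s4 := s3.step (l'' := L (fun _ => β) (fun _ => β + one)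
      (fun q => if N.compat q.1 q.2 then β + p q.1 else β) β)
    (N := dn (-N.Wz)) (R 0 0 (fun _ => 0) (h + 2))
    (by rintro ((w | w) | (w | w))
        · exact Len.zero' (by simp [L])
        · exact Len.zero' (by simp [L])
        · exact Len.zero' (by simp [L])
        · exact G.hn.of_eq (by simp [L]))
    (dn_local (by
      rintro (z | z) s hz
      · simp [Net.Wz] at hz
      · simp [L]))
  have s5 := s4.step (l'' := L (fun s => β + one - p s) (fun _ => β + one)
      (fun q => β + one - p q.2) β)
    (N := dn (-Net.Wa)) (R (h + 1) 0 (fun q => if N.compat q.1 q.2 then h else h + 1) 0)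
    (by rintro ((w | w) | (w | w))
        · exact (G.h1 w).of_eq (by simp only [L, Sum.elim_inl, Sum.elim_inr]; abel)
        · exact Len.zero' (by simp [L])
        · by_cases hc : N.compat w.1 w.2
          · simp only [L, R, Sum.elim_inl, Sum.elim_inr, hc, if_true]
            exact (G.h2 _ _ hc).of_eq (by abel)
          · simp only [L, R, Sum.elim_inl, Sum.elim_inr, hc, if_false]
            exact (G.h1 w.2).of_eq (by abel)
        · exact Len.zero' (by simp [L]))
    (dn_local (by
      rintro (z | z) s hz
      · have : s = z.2 := by by_contra hne; simp [Net.Wa, hne] at hz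
        simp [L, this]
      · simp [Net.Wa] at hz))
  have s6 := s5.step (l'' := L (fun s => β + one - p s) (fun _ => β + one)
      (fun _ => β + one) (β + one))
    (N := up (N.Ra + N.Rz)) (R 0 0 (fun _ => 1) (h + 2))
    (by rintro ((w | w) | (w | w))
        · exact Len.zero' (by simp [L])
        · exact Len.zero' (by simp [L])
        · exact (G.hp w.2).of_eq (by simp [L])
        · exact G.ho.of_eq (by simp [L]))
    (up_local (by rintro s (z | z) _ <;> simp [L]))
  have s7 := s6.comp (Prot.move (l' := L (fun s => β + one - p s) (fun _ => β + one)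
      (fun _ => top) top) (R 0 0 (fun _ => b') b')
    (by rintro ((w | w) | (w | w))
        · exact Len.zero' (by simp [L])
        · exact Len.zero' (by simp [L])
        · exact G.hb'.of_eq (by simp [L])
        · exact G.hb'.of_eq (by simp [L])))
  rw [bwd_prod, N.RW, Matrix.one_mul] at s7
  have e : ∑ q : S × S, (if N.compat q.1 q.2 then 1 else 0) +
      ∑ q : S × S, (if N.compat q.1 q.2 then h else h + 1) =
      Fintype.card S * Fintype.card S * (h + 1) := by
    rw [← Finset.sum_add_distrib]
    rw [Finset.sum_congr rfl (g := fun _ => h + 1) (fun q _ => by split_ifs <;> omega)]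
    simp
  refine (s7.congr rfl (r' := stageCost S J h b b') ?_).equiv (Equiv.refl _) ?_ ?_
    (fun _ _ => rfl)
  · simp only [R, Fintype.sum_sum_type, Sum.elim_inl, Sum.elim_inr, Finset.sum_const,
      Finset.card_univ, smul_eq_mul, Fintype.card_prod, stageCost]
    nlinarith [e]
  · rintro ((w | w) | (w | w)) <;> simp [L]
  · rintro ((w | w) | (w | w)) <;> simp [L]

end Vale.Agent.P344
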