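import Vale.Agent.P344.Gadget

namespace Vale.Agent.P344

open Matrix Finset
open scoped Kronecker

noncomputable def sgn (a : ZMod 2) : ℂ := if a = 0 then 1 else -1

lemma sgn_zero : sgn 0 = 1 := by simp [sgn]

lemma zmod2_cases (a : ZMod 2) : a = 0 ∨ a = 1 := by revert a; decide

lemma sgn_add (a b : ZMod 2) : sgn (a + b) = sgn a * sgn b := by
  have h : (1 : ZMod 2) + 1 = 0 := rfl
  rcases zmod2_cases a with rfl | rfl <;> rcases zmod2_cases b with rfl | rfl <;> simp [sgn, h]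

lemma sgn_sum {ι : Type} (s : Finset ι) (f : ι → ZMod 2) :
    sgn (∑ i ∈ s, f i) = ∏ i ∈ s, sgn (f i) := by
  classical
  induction s using Finset.induction_on with
  | empty => simp [sgn_zero]
  | insert i s hi ih => rw [Finset.sum_insert hi, Finset.prod_insert hi, sgn_add, ih]

lemma sum_zmod2 (f : ZMod 2 → ℂ) : ∑ c, f c = f 0 + f 1 := by
  have : (univ : Finset (ZMod 2)) = {0, 1} := by decide
  rw [this, Finset.sum_pair (by decide)]

abbrev V (α : Type) := α → ZMod 2

lemma V_add_self {α : Type} (x : V α) : x + x = 0 := by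
  ext i; exact CharTwo.add_self_eq_zero _

lemma V_add_eq_zero {α : Type} {x y : V α} : x + y = 0 ↔ x = y := by
  constructor
  · intro h
    have := congrArg (· + y) h
    simpa [add_assoc, V_add_self] using this
  · rintro rfl; exact V_add_self x

variable {α β : Type} [Fintype α] [DecidableEq α] [Fintype β] [DecidableEq β]

lemma orth1 (a : V α) : ∑ s : V α, sgn (s ⬝ᵥ a) = if a = 0 then 2 ^ Fintype.card α else 0 := by
  simp only [dotProduct, sgn_sum]
  rw [← Fintype.piFinset_univ, ← Finset.prod_univ_sum (fun _ => univ) (fun i c => sgn (c * a i))]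
  simp only [sum_zmod2, zero_mul, one_mul, sgn_zero]
  split_ifs with h
  · subst h; simp [sgn_zero]; norm_num
  · obtain ⟨i, hi⟩ := Function.ne_iff.1 h
    exact Finset.prod_eq_zero (mem_univ i) (by simp [sgn, show a i ≠ 0 from hi])

noncomputable def chi (z p : V α × V α) : ℂ := sgn (z.1 ⬝ᵥ p.1) * sgn (z.2 ⬝ᵥ p.2)

omit [DecidableEq α] in
lemma chi_add (z p q : V α × V α) : chi z (p + q) = chi z p * chi z q := by
  simp only [chi, Prod.fst_add, Prod.snd_add, dotProduct_add, sgn_add]; ring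

omit [DecidableEq α] in
lemma chi_comm (z p : V α × V α) : chi z p = chi p z := by
  simp only [chi, dotProduct_comm]

lemma orth2 (p : V α × V α) :
    ∑ z, chi z p = if p = 0 then 4 ^ Fintype.card α else 0 := by
  simp only [chi, Fintype.sum_prod_type]
  rw [← Finset.sum_mul_sum, orth1, orth1]
  obtain ⟨a, b⟩ := p
  by_cases ha : a = 0 <;> by_cases hb : b = 0 <;> simp [ha, hb, ← mul_pow]
  norm_num

omit [Fintype α] [DecidableEq α] in
lemma VV_add_eq_zero {x y : V α × V α} : x + y = 0 ↔ x = y := by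
  simp [Prod.ext_iff, V_add_eq_zero]

noncomputable def Psi (N : Matrix α α (ZMod 2)) : Matrix (V α × V α) (V α × V α) ℂ :=
  Matrix.of fun p q =>
    (1 / 4) ^ Fintype.card α * ∑ z : V α × V α, sgn (z.1 ⬝ᵥ N *ᵥ z.2) * chi z (p + q)

lemma four_pow (n : ℕ) : (1 / 4 : ℂ) ^ n * 4 ^ n = 1 := by rw [← mul_pow]; norm_num

lemma Psi_zero : Psi (0 : Matrix α α (ZMod 2)) = 1 := by
  ext p q
  simp only [Psi, Matrix.of_apply, zero_mulVec, dotProduct_zero, sgn_zero, one_mul, orth2,
    VV_add_eq_zero, Matrix.one_apply]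
  split_ifs
  · exact four_pow _
  · simp

lemma Psi_add (N N' : Matrix α α (ZMod 2)) : Psi (N + N') = Psi N * Psi N' := by
  ext p r
  simp only [Psi, Matrix.of_apply, Matrix.mul_apply]
  have key : ∀ z z' : V α × V α, ∑ q, chi z (p + q) * chi z' (q + r) =
      if z = z' then 4 ^ Fintype.card α * chi z (p + r) else 0 := by
    intro z z'
    have : ∀ q, chi z (p + q) * chi z' (q + r) = chi z p * chi z' r * chi q (z + z') := by
      intro q
      rw [chi_add, chi_add, chi_add, chi_comm q z, chi_comm q z']; ring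
    simp only [this, ← Finset.mul_sum, orth2, VV_add_eq_zero]
    split_ifs with h
    · subst h; rw [chi_add]; ring
    · simp
  symm
  calc _ = ∑ q, ∑ z : V α × V α, ∑ z' : V α × V α, (1 / 4 : ℂ) ^ Fintype.card α *
        (1 / 4) ^ Fintype.card α * sgn (z.1 ⬝ᵥ N *ᵥ z.2) * sgn (z'.1 ⬝ᵥ N' *ᵥ z'.2) *
        (chi z (p + q) * chi z' (q + r)) := by
        refine Finset.sum_congr rfl fun q _ => ?_
        rw [mul_mul_mul_comm, Finset.sum_mul_sum, Finset.mul_sum]
        refine Finset.sum_congr rfl fun z _ => ?_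
        rw [Finset.mul_sum]
        exact Finset.sum_congr rfl fun z' _ => by ring
    _ = ∑ z : V α × V α, ∑ z' : V α × V α, (1 / 4 : ℂ) ^ Fintype.card α *
        (1 / 4) ^ Fintype.card α * sgn (z.1 ⬝ᵥ N *ᵥ z.2) * sgn (z'.1 ⬝ᵥ N' *ᵥ z'.2) *
        ∑ q, (chi z (p + q) * chi z' (q + r)) := by
        rw [Finset.sum_comm]
        refine Finset.sum_congr rfl fun z _ => ?_
        rw [Finset.sum_comm]
        exact Finset.sum_congr rfl fun z' _ => by rw [Finset.mul_sum]
    _ = _ := by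
        simp only [key, mul_ite, mul_zero, Finset.sum_ite_eq, mem_univ, if_true]
        rw [Finset.mul_sum]
        refine Finset.sum_congr rfl fun z _ => ?_
        rw [add_mulVec, dotProduct_add, sgn_add]
        linear_combination ((1 / 4 : ℂ) ^ Fintype.card α * sgn (z.1 ⬝ᵥ N *ᵥ z.2) *
          sgn (z.1 ⬝ᵥ N' *ᵥ z.2) * chi z (p + r)) * four_pow (Fintype.card α)

lemma gauss (a b : V β) : sgn (a ⬝ᵥ b) = (1 / 2) ^ Fintype.card β *
    ∑ w : V β × V β, sgn (w.1 ⬝ᵥ w.2) * (sgn (a ⬝ᵥ w.1) * sgn (b ⬝ᵥ w.2)) := by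
  rw [Fintype.sum_prod_type_right]
  have : ∀ t : V β, ∑ s : V β, sgn (s ⬝ᵥ t) * (sgn (a ⬝ᵥ s) * sgn (b ⬝ᵥ t)) =
      if a = t then 2 ^ Fintype.card β * sgn (b ⬝ᵥ t) else 0 := by
    intro t
    have : ∀ s : V β, sgn (s ⬝ᵥ t) * (sgn (a ⬝ᵥ s) * sgn (b ⬝ᵥ t)) =
        sgn (s ⬝ᵥ (a + t)) * sgn (b ⬝ᵥ t) := by
      intro s; rw [dotProduct_add, sgn_add, dotProduct_comm s a]; ring
    simp only [this, ← Finset.sum_mul, orth1, V_add_eq_zero]
    split_ifs <;> simp
  simp only [this, Finset.sum_ite_eq, mem_univ, if_true]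
  rw [← mul_assoc, ← mul_pow, dotProduct_comm]; norm_num

lemma Psi_ker {N : Matrix α α (ZMod 2)} (j1 j2 : V β → V α) (a1 a2 : V α → V β)
    (h1 : ∀ z s, z ⬝ᵥ j1 s = a1 z ⬝ᵥ s) (h2 : ∀ z s, z ⬝ᵥ j2 s = a2 z ⬝ᵥ s)
    (hN : ∀ z z', z ⬝ᵥ N *ᵥ z' = a1 z ⬝ᵥ a2 z') (p q : V α × V α) :
    Psi N p q = ∑ w : V β × V β, if (j1 w.1, j2 w.2) = p + q then
      (1 / 2) ^ Fintype.card β * sgn (w.1 ⬝ᵥ w.2) else 0 := by
  simp only [Psi, Matrix.of_apply, hN]
  have : ∀ z : V α × V α, sgn (a1 z.1 ⬝ᵥ a2 z.2) * chi z (p + q) =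
      ∑ w : V β × V β, (1 / 2) ^ Fintype.card β * sgn (w.1 ⬝ᵥ w.2) *
        chi z ((j1 w.1, j2 w.2) + (p + q)) := by
    intro z
    rw [gauss, Finset.mul_sum, Finset.sum_mul]
    refine Finset.sum_congr rfl fun w _ => ?_
    rw [chi_add z (j1 w.1, j2 w.2)]
    simp only [chi, h1, h2]; ring
  simp only [this]
  rw [Finset.sum_comm, Finset.mul_sum]
  refine Finset.sum_congr rfl fun w _ => ?_
  rw [← Finset.mul_sum, orth2]
  simp only [VV_add_eq_zero]
  split_ifs
  · linear_combination ((1 / 2 : ℂ) ^ Fintype.card β * sgn (w.1 ⬝ᵥ w.2)) *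
      four_pow (Fintype.card α)
  · simp

/-- A diagonal rescaling of the Walsh-Hadamard transform on `2 * |α|` bits. -/
noncomputable def Kmat (α : Type) [Fintype α] : Matrix (V α × V α) (V α × V α) ℂ :=
  Matrix.of fun p q => (1 / 2) ^ Fintype.card α * sgn ((p.1 + q.1) ⬝ᵥ (p.2 + q.2))

lemma Psi_one : Psi (1 : Matrix α α (ZMod 2)) = Kmat α := by
  ext p q
  rw [Psi_ker (β := α) id id id id (fun _ _ => rfl) (fun _ _ => rfl) (by simp)]
  simp only [id, Prod.mk.eta, Finset.sum_ite_eq', mem_univ, if_true]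
  rfl

section atom

variable {κ : Type} [Fintype κ] [DecidableEq κ]

def jv (u : V κ) (s : V β) : V (κ × β) := fun p => u p.1 * s p.2

def adj (u : V κ) (z : V (κ × β)) : V β := fun b => ∑ a, u a * z (a, b)

def emb (i0 : κ) (u : V κ) (r : {a // a ≠ i0} × β → ZMod 2) (s : V β) : V (κ × β) :=
  fun p => (if h : p.1 = i0 then 0 else r (⟨p.1, h⟩, p.2)) + u p.1 * s p.2

omit [DecidableEq β] [DecidableEq κ] in
lemma jv_adj (u : V κ) (z : V (κ × β)) (s : V β) : z ⬝ᵥ jv u s = adj u z ⬝ᵥ s := by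
  simp only [dotProduct, jv, adj, Fintype.sum_prod_type_right, Finset.sum_mul]
  exact Finset.sum_congr rfl fun b _ => Finset.sum_congr rfl fun a _ => by ring

omit [DecidableEq κ] in
lemma atom_form (u v : V κ) (z z' : V (κ × β)) :
    z ⬝ᵥ (vecMulVec u v ⊗ₖ (1 : Matrix β β (ZMod 2))) *ᵥ z' = adj u z ⬝ᵥ adj v z' := by
  have : (vecMulVec u v ⊗ₖ (1 : Matrix β β (ZMod 2))) *ᵥ z' = jv u (adj v z') := by
    ext ⟨a, b⟩
    simp only [mulVec, dotProduct, jv, adj, Fintype.sum_prod_type, kroneckerMap_apply,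
      vecMulVec_apply, Matrix.one_apply, mul_ite, mul_one, mul_zero, ite_mul, zero_mul,
      Finset.sum_ite_eq, mem_univ, if_true, Finset.mul_sum, mul_assoc]
  rw [this, jv_adj]

omit [Fintype β] [DecidableEq β] [Fintype κ] in
lemma emb_add (i0 : κ) (u : V κ) (r : {a // a ≠ i0} × β → ZMod 2) (s t : V β) :
    emb i0 u r s + jv u t = emb i0 u r (s + t) := by
  ext p; simp only [emb, jv, Pi.add_apply]; ring

omit [Fintype β] [DecidableEq β] [Fintype κ] in
lemma emb_inj {i0 : κ} {u : V κ} (h : u i0 = 1) (r : {a // a ≠ i0} × β → ZMod 2) :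
    Function.Injective (emb i0 u r) := by
  intro s t e
  ext b
  simpa [emb, h] using congrFun e (i0, b)

omit [Fintype β] [DecidableEq β] [Fintype κ] in
lemma emb_surj {i0 : κ} {u : V κ} (h : u i0 = 1) (x : V (κ × β)) :
    ∃ r s, emb i0 u r s = x := by
  refine ⟨fun p => x (p.1, p.2) + u p.1 * x (i0, p.2), fun b => x (i0, b), ?_⟩
  ext ⟨a, b⟩
  simp only [emb]
  split_ifs with ha
  · subst ha; simp [h]
  · rw [add_assoc, CharTwo.add_self_eq_zero, add_zero]

omit [Fintype β] [DecidableEq β] [Fintype κ] in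
lemma jv_eq_iff {i0 : κ} {u : V κ} (h : u i0 = 1) (r : {a // a ≠ i0} × β → ZMod 2)
    (s s' t : V β) : jv u t = emb i0 u r s + emb i0 u r s' ↔ t = s + s' := by
  constructor
  · intro e
    have : emb i0 u r (s + t) = emb i0 u r s' := by
      rw [← emb_add, e, ← add_assoc, V_add_self, zero_add]
    rw [← emb_inj h r this, ← add_assoc, V_add_self, zero_add]
  · rintro rfl
    have := emb_add i0 u r s (s + s')
    rw [← add_assoc s, V_add_self, zero_add] at this
    rw [← this, ← add_assoc, V_add_self, zero_add]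

lemma atom_cost {B : Type} [Fintype B] [DecidableEq B] {c : ℝ} (hc : 0 ≤ c)
    (h : Cost (bd fun _ : B => Kmat β) c) (M : Matrix κ κ (ZMod 2)) (hM : M ∈ atoms κ) :
    Cost (bd fun _ : B => Psi (M ⊗ₖ (1 : Matrix β β (ZMod 2))))
      (4 ^ ((Fintype.card κ - 1) * Fintype.card β) * c) := by
  obtain ⟨u, v, rfl⟩ := hM
  by_cases h0 : u = 0 ∨ v = 0
  · have : vecMulVec u v = 0 := by rcases h0 with rfl | rfl <;> simp
    rw [this, zero_kronecker, Psi_zero]
    refine (Cost.one.sub id id Function.injective_id ?_).mono (by positivity)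
    rintro ⟨b, x⟩ ⟨b', y⟩
    simp [bd, Matrix.one_apply, ite_and]
  push_neg at h0
  obtain ⟨i0, hi0⟩ := Function.ne_iff.1 h0.1
  obtain ⟨i1, hi1⟩ := Function.ne_iff.1 h0.2
  have hu : u i0 = 1 := (zmod2_cases _).resolve_left hi0
  have hv : v i1 = 1 := (zmod2_cases _).resolve_left hi1
  let e (g : ({a // a ≠ i0} × β → ZMod 2) × ({a // a ≠ i1} × β → ZMod 2))
      (d : B × (V β × V β)) : B × (V (κ × β) × V (κ × β)) :=
    (d.1, (emb i0 u g.1 d.2.1, emb i1 v g.2 d.2.2))
  have := Cost.rows (M := bd fun _ : B => Psi (vecMulVec u v ⊗ₖ (1 : Matrix β β (ZMod 2))))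
    (δ := fun _ => B × (V β × V β)) (fun _ => c) e ?_ ?_
  · refine this.mono (le_of_eq ?_)
    simp only [Finset.sum_const, Finset.card_univ, Fintype.card_prod, Fintype.card_fun,
      ZMod.card, nsmul_eq_mul, Fintype.card_subtype_compl, Fintype.card_unique]
    push_cast
    rw [← mul_pow]; norm_num
  · intro g
    refine h.ext (e g) ?_ ?_ ?_
    · rintro ⟨b, s, t⟩ ⟨b', s', t'⟩ he
      simp only [e, Prod.mk.injEq] at he
      rw [he.1, emb_inj hu _ he.2.1, emb_inj hv _ he.2.2]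
    · rintro ⟨b, s, t⟩ ⟨b', s', t'⟩
      simp only [e, bd, submatrix_apply, id]
      split_ifs
      · rw [Psi_ker (jv u) (jv v) (adj u) (adj v) (jv_adj u) (jv_adj v) (atom_form u v)]
        simp only [Prod.mk_add_mk, Prod.mk.injEq, jv_eq_iff hu, jv_eq_iff hv]
        rw [Finset.sum_eq_single (s + s', t + t')]
        · simp [Kmat]
        · rintro ⟨w1, w2⟩ _ hw
          rw [if_neg]
          rintro ⟨rfl, rfl⟩
          exact hw rfl
        · simp
      · rfl
    · rintro ⟨b, s, t⟩ ⟨b', x, y⟩ h0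
      simp only [e, bd, submatrix_apply, id]
      split_ifs with hb
      · rw [Psi_ker (jv u) (jv v) (adj u) (adj v) (jv_adj u) (jv_adj v) (atom_form u v)]
        refine Finset.sum_eq_zero fun w _ => if_neg ?_
        simp only [Prod.mk_add_mk, Prod.mk.injEq]
        rintro ⟨e1, e2⟩
        refine h0 (b', s + w.1, t + w.2) ?_
        simp only [e, Prod.mk.injEq, true_and]
        rw [← emb_add, ← emb_add, e1, e2, ← add_assoc, ← add_assoc, V_add_self, V_add_self,
          zero_add, zero_add]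
        exact ⟨rfl, rfl⟩
      · rfl
  · rintro ⟨b, x, y⟩
    obtain ⟨r, s, rfl⟩ := emb_surj hu x
    obtain ⟨r', s', rfl⟩ := emb_surj hv y
    exact ⟨(r, r'), (b, s, s'), rfl⟩

lemma bd_mul {B G : Type} [Fintype B] [DecidableEq B] [Fintype G] (M N : Matrix G G ℂ) :
    (bd fun _ : B => M * N) = (bd fun _ : B => M) * (bd fun _ : B => N) := by
  ext ⟨b, x⟩ ⟨b', y⟩
  simp only [bd, Matrix.mul_apply, Fintype.sum_prod_type, ite_mul, zero_mul]
  rw [Finset.sum_comm]
  simp only [Finset.sum_ite_eq, mem_univ, if_true, mul_ite, mul_zero]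
  split_ifs <;> simp

lemma bd_one {B G : Type} [DecidableEq B] [DecidableEq G] :
    (bd fun _ : B => (1 : Matrix G G ℂ)) = 1 := by
  ext ⟨b, x⟩ ⟨b', y⟩
  simp [bd, Matrix.one_apply, ite_and]

lemma psi_rep {B : Type} [Fintype B] [DecidableEq B] {c : ℝ} (hc : 0 ≤ c)
    (h : Cost (bd fun _ : B => Kmat β) c) :
    Rep (atoms κ) (fun M => bd fun _ : B => Psi (M ⊗ₖ (1 : Matrix β β (ZMod 2))))
      (4 ^ ((Fintype.card κ - 1) * Fintype.card β) * c) where
  zero := by rw [zero_kronecker, Psi_zero, bd_one]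
  add x y := by rw [add_kronecker, Psi_add, bd_mul]
  cost x hx := atom_cost hc h x hx

end atom

end Vale.Agent.P344
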